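import Crest.Agent.N067.Z.Defs
import Crest.Agent.N067.T.Mid

/-!
# Row 67, TOP (helper90): the absorption, and the two splittings of the `lw²` gains
-/

set_option autoImplicit false
set_option linter.dupNamespace false

open MeasureTheory Laplacian InnerProductSpace Topology Filter Set Metric
open scoped RealInnerProductSpace Gradient ENNReal

namespace Crest.Agent.N067.M

open Crest.Agent.R077 Crest.Agent.N067.V Crest.Agent.N067.Y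

noncomputable section

theorem absorb_real {co gb gh kp km pot ea eb fp fm gt t3 tm rr g1 g2 gg P pg pp pm p1 p2 src out
    ε e0 e e' Cm L1 Cp A Am A3 AM r2 be R2 Z2 kq cF : ℝ}
    (h0 : 0 ≤ gb ∧ 0 ≤ gh ∧ 0 ≤ kp ∧ 0 ≤ km ∧ 0 ≤ rr ∧ 0 ≤ g1 ∧ 0 ≤ g2 ∧ 0 ≤ gg ∧ 0 ≤ pg ∧ 0 ≤ src)
    (main : (1 + ε) * co + 1 / 40000 * gb + 1 / 200 * gh + kq * (kp + km) ≤
      pot + L1 * (ea + eb) + 6 / 5 * (fp + fm) + Cm * gt + Cm * r2 * t3 + be * tm + Cm * R2 * rr)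
    (stab : (1 - ε) * P + e0 * g1 + (1 - 2 * ε) * pg ≤ (1 + ε) * co)
    (ps : pot ≤ (1 - ε) * P + p1 + Cp * p2) (h1 : p1 ≤ e * gg) (h2 : p2 ≤ A * g2)
    (ha : ea ≤ e * (kp + gg)) (hb : eb ≤ e * (km + gg))
    (hp : fp ≤ e * (kp + gg) + cF * pp) (hm : fm ≤ e * (km + gg) + cF * pm) (hpg : pp + pm ≤ pg)
    (hgt : gt ≤ e * gb) (h3 : t3 ≤ A3 * g1) (hM : tm ≤ AM * g1)
    (mid : g2 ≤ e' * g1 + Am * Z2 * src) (hgg : gg ≤ g1 + g2 + 64 * gh + r2 * t3)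
    (hout : out ≤ gh + r2 * t3)
    (c0 : 0 < e0 ∧ 0 ≤ e ∧ 1 ≤ Cm ∧ 0 ≤ L1 ∧ 0 ≤ Cp ∧ 0 ≤ A ∧ 0 ≤ Am ∧ 0 ≤ r2 ∧ 0 ≤ be ∧ 0 ≤ R2 ∧
      0 ≤ Z2 ∧ 0 ≤ cF ∧ 0 ≤ e')
    (n1 : 6 / 5 * cF ≤ 1 - 2 * ε) (n2 : (L1 + 6 / 5) * e ≤ kq) (n3 : Cm * e ≤ 1 / 40000)
    (n4 : Cm * r2 * A3 ≤ e0 / 8) (n5 : be * AM ≤ e0 / 8) (n6 : r2 * A3 ≤ 1)
    (n7 : (1 + 2 * (L1 + 6 / 5)) * e ≤ min (e0 / 8) (1 / 25600))
    (n8 : (Cp * A + 1) * e' ≤ min (e0 / 4) 1) :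
    out + gg ≤ (16 / e0 + 26001) * ((Cp * A + 1) * Am + Cm) * (R2 * rr + Z2 * src) := by
  obtain ⟨a1, a2, a3, a4, a5, a6, a7, a8, a9, a10⟩ := h0
  obtain ⟨b1, b2, b3, b4, b5, b6, b7, b8, b9, b10, b11, b12, b13⟩ := c0
  have n7a := n7.trans (min_le_left _ _)
  have n7b := n7.trans (min_le_right _ _)
  have n8a := n8.trans (min_le_left _ _)
  have n8b := n8.trans (min_le_right _ _)
  set E := (1 + 2 * (L1 + 6 / 5)) * e with hE
  have E0 : 0 ≤ E := by positivity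
  have CA : 0 ≤ Cp * A := by positivity
  have s1 : L1 * (ea + eb) ≤ L1 * (e * (kp + km + 2 * gg)) :=
    mul_le_mul_of_nonneg_left (by linarith only [ha, hb]) b4
  have s2 : fp + fm ≤ e * (kp + km + 2 * gg) + cF * pg := by
    linarith only [hp, hm, mul_le_mul_of_nonneg_left hpg b12]
  have s3 := mul_le_mul_of_nonneg_right n1 a9
  have s4 := mul_le_mul_of_nonneg_right n2 (add_nonneg a3 a4)
  have s5 : Cm * gt ≤ 1 / 40000 * gb := by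
    linarith only [mul_le_mul_of_nonneg_left hgt (zero_le_one.trans b3),
      mul_le_mul_of_nonneg_right n3 a1]
  have s6 : Cm * r2 * t3 ≤ e0 / 8 * g1 := by
    linarith only [mul_le_mul_of_nonneg_left h3 (mul_nonneg (zero_le_one.trans b3) b8),
      mul_le_mul_of_nonneg_right n4 a6]
  have s7 : be * tm ≤ e0 / 8 * g1 := by
    linarith only [mul_le_mul_of_nonneg_left hM b9, mul_le_mul_of_nonneg_right n5 a6]
  have s8 : r2 * t3 ≤ g1 := by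
    linarith only [mul_le_mul_of_nonneg_left h3 b8, mul_le_mul_of_nonneg_right n6 a6]
  have s9 := mul_le_mul_of_nonneg_left h2 b5
  have k1 : 3 / 4 * e0 * g1 + 1 / 200 * gh ≤ E * gg + Cp * A * g2 + Cm * R2 * rr := by
    rw [hE]; linarith only [main, stab, ps, h1, s1, s2, s3, s4, s5, s6, s7, s9]
  have k2 : E * gg ≤ e0 / 4 * g1 + g2 + 1 / 400 * gh := by
    have : E * gg ≤ E * (2 * g1 + g2 + 64 * gh) :=
      mul_le_mul_of_nonneg_left (by linarith only [hgg, s8]) E0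
    linarith only [this, mul_le_mul_of_nonneg_right n7a a6, mul_le_mul_of_nonneg_right n7b a7,
      mul_le_mul_of_nonneg_right n7b a2, a7]
  have k3 : (Cp * A + 1) * g2 ≤ e0 / 4 * g1 + (Cp * A + 1) * (Am * Z2 * src) := by
    linarith only [mul_le_mul_of_nonneg_left mid (by positivity : 0 ≤ Cp * A + 1),
      mul_le_mul_of_nonneg_right n8a a6]
  have q1 : 0 ≤ Am * Z2 * src := by positivity
  have q2 : 0 ≤ Cm * R2 * rr := by positivity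
  have k8 : (Cp * A + 1) * (Am * Z2 * src) + Cm * R2 * rr ≤
      ((Cp * A + 1) * Am + Cm) * (R2 * rr + Z2 * src) := by
    have u1 : 0 ≤ (Cp * A + 1) * Am * (R2 * rr) := by positivity
    have u2 : 0 ≤ Cm * (Z2 * src) := by positivity
    linarith only [u1, u2]
  have k7 : g2 ≤ g1 + ((Cp * A + 1) * (Am * Z2 * src) + Cm * R2 * rr) := by
    have : e' ≤ 1 := by linarith only [n8b, mul_nonneg CA b13]
    linarith only [mid, mul_le_mul_of_nonneg_right this a6, q2, mul_nonneg CA q1]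
  have k4 : e0 / 4 * g1 + 1 / 400 * gh ≤ (Cp * A + 1) * (Am * Z2 * src) + Cm * R2 * rr := by
    linarith only [k1, k2, k3]
  have Q0 : 0 ≤ (Cp * A + 1) * (Am * Z2 * src) + Cm * R2 * rr := by positivity
  generalize (Cp * A + 1) * (Am * Z2 * src) + Cm * R2 * rr = Q at k4 k7 k8 Q0
  have k5 : g1 ≤ 4 / e0 * Q := by
    rw [div_mul_eq_mul_div, le_div_iff₀ b1]; linarith only [k4, a2]
  have k6 : gh ≤ 400 * Q := by linarith only [k4, mul_nonneg b1.le a6]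
  calc out + gg ≤ 4 * g1 + Q + 65 * gh := by linarith only [hout, hgg, s8, k7]
    _ ≤ (16 / e0 + 26001) * Q := by
      have : 4 * (4 / e0 * Q) = 16 / e0 * Q := by ring
      linarith only [this, k5, k6]
    _ ≤ _ := by rw [mul_assoc]; gcongr

theorem ex_ofReal {a : ℝ≥0∞} (h : a ≠ ⊤) : ∃ x : ℝ, 0 ≤ x ∧ a = ENNReal.ofReal x :=
  ⟨a.toReal, ENNReal.toReal_nonneg, (ENNReal.ofReal_toReal h).symm⟩

local notation "oR" => ENNReal.ofReal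

theorem oR_mul_ne {a : ℝ} {b : ℝ≥0∞} (h : b ≠ ⊤) : oR a * b ≠ ⊤ :=
  ENNReal.mul_ne_top ENNReal.ofReal_ne_top h

/-- the absorption in `ℝ≥0∞` -/
theorem absorb {CO GB GH KP KM POT EA EB FP FM GT T3 TM RR G1 G2 GG P PG PP PM P1 P2 SRC OUT : ℝ≥0∞}
    {ε e0 e e' Cm L1 Cp A Am A3 AM r2 be R2 Z2 kq cF : ℝ}
    (f : CO ≠ ⊤ ∧ GB ≠ ⊤ ∧ GH ≠ ⊤ ∧ GG ≠ ⊤ ∧ KP ≠ ⊤ ∧ KM ≠ ⊤ ∧ RR ≠ ⊤) (f1 : G1 ≤ GG) (f2 : G2 ≤ GG)
    (main : oR (1 + ε) * CO + oR (1 / 40000) * GB + oR (1 / 200) * GH + oR kq * (KP + KM) ≤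
      POT + oR L1 * (EA + EB) + oR (6 / 5) * (FP + FM) + oR Cm * GT + oR (Cm * r2) * T3 +
        oR be * TM + oR (Cm * R2) * RR)
    (stab : oR (1 - ε) * P + oR e0 * G1 + oR (1 - 2 * ε) * PG ≤ oR (1 + ε) * CO)
    (ps : POT ≤ oR (1 - ε) * P + P1 + oR Cp * P2) (h1 : P1 ≤ oR e * GG) (h2 : P2 ≤ oR A * G2)
    (ha : EA ≤ oR e * (KP + GG)) (hb : EB ≤ oR e * (KM + GG))
    (hp : FP ≤ oR e * (KP + GG) + oR cF * PP) (hm : FM ≤ oR e * (KM + GG) + oR cF * PM)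
    (hpg : PP + PM ≤ PG) (hgt : GT ≤ oR e * GB) (h3 : T3 ≤ oR A3 * G1) (hM : TM ≤ oR AM * G1)
    (mid : G2 ≤ oR e' * G1 + oR (Am * Z2) * SRC)
    (hgg : GG ≤ G1 + G2 + oR 64 * GH + oR r2 * T3) (hout : OUT ≤ GH + oR r2 * T3)
    (c0 : 0 < e0 ∧ 0 ≤ e ∧ 1 ≤ Cm ∧ 0 ≤ L1 ∧ 0 ≤ Cp ∧ 0 ≤ A ∧ 0 ≤ Am ∧ 0 ≤ r2 ∧ 0 ≤ be ∧ 0 ≤ R2 ∧
      0 < Z2 ∧ 0 ≤ cF ∧ 0 ≤ e') (c1 : 0 ≤ ε ∧ ε ≤ 1 / 4 ∧ 0 ≤ A3 ∧ 0 ≤ AM ∧ 0 ≤ kq)
    (n1 : 6 / 5 * cF ≤ 1 - 2 * ε) (n2 : (L1 + 6 / 5) * e ≤ kq) (n3 : Cm * e ≤ 1 / 40000)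
    (n4 : Cm * r2 * A3 ≤ e0 / 8) (n5 : be * AM ≤ e0 / 8) (n6 : r2 * A3 ≤ 1)
    (n7 : (1 + 2 * (L1 + 6 / 5)) * e ≤ min (e0 / 8) (1 / 25600))
    (n8 : (Cp * A + 1) * e' ≤ min (e0 / 4) 1) :
    OUT + GG ≤ oR ((16 / e0 + 26001) * ((Cp * A + 1) * Am + Cm)) * (oR R2 * RR + oR Z2 * SRC) := by
  obtain ⟨b1, b2, b3, b4, b5, b6, b7, b8, b9, b10, b11, b12, b13⟩ := c0
  obtain ⟨d1, d2, d3, d4, d5⟩ := c1
  obtain ⟨a1, a2, a3, a4, a5, a6, a7⟩ := f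
  rcases eq_or_ne SRC ⊤ with rfl | a8
  · rw [ENNReal.mul_top (ENNReal.ofReal_pos.2 b11).ne', add_top,
      ENNReal.mul_top (ENNReal.ofReal_pos.2 (by positivity)).ne']
    exact le_top
  have g1 := ne_top_of_le_ne_top a4 f1
  have g2 := ne_top_of_le_ne_top a4 f2
  have s0 := ne_top_of_le_ne_top (oR_mul_ne a1) stab
  have fin : ∀ {c : ℝ} {X : ℝ≥0∞}, 0 < c → oR c * X ≠ ⊤ → X ≠ ⊤ := fun hc h hX =>
    h (by rw [hX, ENNReal.mul_top (ENNReal.ofReal_pos.2 hc).ne'])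
  have gP : P ≠ ⊤ := fin (by linarith) (ENNReal.add_ne_top.1 (ENNReal.add_ne_top.1 s0).1).1
  have gG : PG ≠ ⊤ := fin (by linarith) (ENNReal.add_ne_top.1 s0).2
  obtain ⟨gp, gm⟩ := ENNReal.add_ne_top.1 (ne_top_of_le_ne_top gG hpg)
  have kp := ENNReal.add_ne_top.2 ⟨a5, a4⟩
  have km := ENNReal.add_ne_top.2 ⟨a6, a4⟩
  have q1 := ne_top_of_le_ne_top (oR_mul_ne a4) h1
  have q2 := ne_top_of_le_ne_top (oR_mul_ne g2) h2
  have q3 := ne_top_of_le_ne_top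
    (ENNReal.add_ne_top.2 ⟨ENNReal.add_ne_top.2 ⟨oR_mul_ne gP, q1⟩, oR_mul_ne q2⟩) ps
  have q4 := ne_top_of_le_ne_top (oR_mul_ne kp) ha
  have q5 := ne_top_of_le_ne_top (oR_mul_ne km) hb
  have q6 := ne_top_of_le_ne_top (ENNReal.add_ne_top.2 ⟨oR_mul_ne kp, oR_mul_ne gp⟩) hp
  have q7 := ne_top_of_le_ne_top (ENNReal.add_ne_top.2 ⟨oR_mul_ne km, oR_mul_ne gm⟩) hm
  have q8 := ne_top_of_le_ne_top (oR_mul_ne a2) hgt
  have q9 := ne_top_of_le_ne_top (oR_mul_ne g1) h3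
  have q10 := ne_top_of_le_ne_top (oR_mul_ne g1) hM
  have q11 := ne_top_of_le_ne_top (ENNReal.add_ne_top.2 ⟨a3, oR_mul_ne q9⟩) hout
  obtain ⟨co, z1, rfl⟩ := ex_ofReal a1
  obtain ⟨gb, z2, rfl⟩ := ex_ofReal a2
  obtain ⟨gh, z3, rfl⟩ := ex_ofReal a3
  obtain ⟨gg, z4, rfl⟩ := ex_ofReal a4
  obtain ⟨kp, z5, rfl⟩ := ex_ofReal a5
  obtain ⟨km, z6, rfl⟩ := ex_ofReal a6
  obtain ⟨rr, z7, rfl⟩ := ex_ofReal a7
  obtain ⟨src, z8, rfl⟩ := ex_ofReal a8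
  obtain ⟨x1, z9, rfl⟩ := ex_ofReal g1
  obtain ⟨x2, z10, rfl⟩ := ex_ofReal g2
  obtain ⟨P, z11, rfl⟩ := ex_ofReal gP
  obtain ⟨pg, z12, rfl⟩ := ex_ofReal gG
  obtain ⟨pp, z13, rfl⟩ := ex_ofReal gp
  obtain ⟨pm, z14, rfl⟩ := ex_ofReal gm
  obtain ⟨p1, z15, rfl⟩ := ex_ofReal q1
  obtain ⟨p2, z16, rfl⟩ := ex_ofReal q2
  obtain ⟨pot, z17, rfl⟩ := ex_ofReal q3
  obtain ⟨ea, z18, rfl⟩ := ex_ofReal q4
  obtain ⟨eb, z19, rfl⟩ := ex_ofReal q5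
  obtain ⟨fp, z20, rfl⟩ := ex_ofReal q6
  obtain ⟨fm, z21, rfl⟩ := ex_ofReal q7
  obtain ⟨gt, z22, rfl⟩ := ex_ofReal q8
  obtain ⟨t3, z23, rfl⟩ := ex_ofReal q9
  obtain ⟨tm, z24, rfl⟩ := ex_ofReal q10
  obtain ⟨out, z25, rfl⟩ := ex_ofReal q11
  have e1 : 0 ≤ 1 - ε := by linarith
  have e2 : 0 ≤ 1 - 2 * ε := by linarith
  have e3 : 0 ≤ Cm := by linarith
  have e4 := b11.le
  have e5 := b1.le
  simp (disch := positivity) only [← ENNReal.ofReal_add, ← ENNReal.ofReal_mul,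
    ENNReal.ofReal_le_ofReal_iff] at main stab ps h1 h2 ha hb hp hm hpg hgt h3 hM mid hgg hout ⊢
  exact absorb_real ⟨z2, z3, z5, z6, z7, z9, z10, z4, z12, z8⟩ main stab ps h1 h2 ha hb hp hm hpg
    hgt h3 hM mid hgg hout ⟨b1, b2, b3, b4, b5, b6, b7, b8, b9, b10, e4, b12, b13⟩
    n1 n2 n3 n4 n5 n6 n7 n8

variable {n : ℕ} {D : Dat n} {μ : Mu} {p : Wp n} {K C1 rs ηt C T2 τ : ℝ} {x : EE n}

namespace Ex

variable (E : Ex D μ p K C1 rs ηt C T2 τ)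
include E

theorem ch_one' (h : |dd D.v x| < T2) : D.ch x = 1 :=
  Real.smoothTransition.one_of_one_le (by linarith [E.th.lo x])

theorem lw_sq (x : EE n) : D.lw x ^ 2 ≤ 1 / rs ^ 2 := by
  rw [← one_div_pow]
  exact pow_le_pow_left₀ (E.ok.lwpos x).1.le (E.ok.lwpos x).2 2

theorem meas_U_le (a : ℝ) : MeasurableSet {x | x ∈ D.In ∧ D.U x ≤ a} := by
  classical
  have hU : Measurable fun x => if x ∈ D.Om then D.U x else 0 :=
    ContinuousOn.measurable_piecewise (f := D.U) (g := fun _ => 0) (E.ok.U_cont E.bas)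
      continuousOn_const E.bas.op.measurableSet
  have e : {x | x ∈ D.In ∧ D.U x ≤ a} = D.In ∩ {x | (if x ∈ D.Om then D.U x else 0) ≤ a} :=
    Set.ext fun x => and_congr_right fun hx => by rw [mem_ofPred_eq, if_pos hx.1]
  rw [e]
  exact (E.ok.meas_In E.bas).inter (measurableSet_le hU measurable_const)

theorem meas_le_U (a : ℝ) : MeasurableSet {x | x ∈ D.In ∧ a ≤ D.U x} := by
  classical
  have hU : Measurable fun x => if x ∈ D.Om then D.U x else 0 :=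
    ContinuousOn.measurable_piecewise (f := D.U) (g := fun _ => 0) (E.ok.U_cont E.bas)
      continuousOn_const E.bas.op.measurableSet
  have e : {x | x ∈ D.In ∧ a ≤ D.U x} = D.In ∩ {x | a ≤ if x ∈ D.Om then D.U x else 0} :=
    Set.ext fun x => and_congr_right fun hx => by rw [mem_ofPred_eq, if_pos hx.1]
  rw [e]
  exact (E.ok.meas_In E.bas).inter (measurableSet_le measurable_const hU)

theorem meas_top (a : ℝ) :
    MeasurableSet {x | (x ∈ D.In ∧ a ≤ D.U x) ∨ (x ∉ D.Om ∧ |dd D.v x| < T2)} :=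
  (E.meas_le_U a).union (E.bas.op.measurableSet.compl.inter
    (measurableSet_lt E.bas.sol.dd_sm.continuous.abs.measurable measurable_const))

theorem meas_ch : Measurable D.ch :=
  Real.smoothTransition.continuous.measurable.comp (measurable_const.sub
    (E.bas.sol.dd_sm.continuous.abs.measurable.sub E.ok.Tmeas))

theorem meas_gg : Measurable D.gg := by
  classical
  exact Measurable.ite E.bas.op.measurableSet
    ((E.meas_ch.pow_const 2).mul ((E.ok.meas_Z E.bas).pow_const 2))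
    (Measurable.ite (T.meas_band E.bas.sol 1) measurable_const measurable_const)

theorem gg_mem' (x : EE n) : 0 ≤ D.gg x ∧ D.gg x ≤ 1 := by
  have h1 := E.ok.Z_mem E.bas x
  have h2 : 0 ≤ D.ch x := Real.smoothTransition.nonneg _
  have h3 : D.ch x ≤ 1 := Real.smoothTransition.le_one _
  unfold Dat.gg
  split_ifs
  · exact ⟨by positivity, mul_le_one₀ (pow_le_one₀ h2 h3) (sq_nonneg _) (pow_le_one₀ h1.1.le h1.2)⟩
  · exact ⟨zero_le_one, le_rfl⟩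
  · exact ⟨le_rfl, zero_le_one⟩

/-- the left side of `mi` -/
theorem out_le : ∫⁻ x, oR (D.gg x * psi D.v x ^ 2 * D.W x ^ 2 * D.lw x ^ 2) ≤
    D.GH μ + oR (1 / rs ^ 2) * D.TOP μ.U3 T2 := by
  rw [Dat.GH, Dat.TOP, ← lintegral_const_mul' _ _ ENNReal.ofReal_ne_top,
    ← lintegral_indicator (E.meas_U_le _), ← lintegral_indicator (E.meas_top _)]
  refine (lintegral_mono fun x => ?_).trans (le_of_eq (lintegral_add_right _ ?_))
  swap
  · exact (measurable_const.mul (E.ok.Wcd.continuous.measurable.pow_const 2).ennreal_ofReal).indicator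
      (E.meas_top _)
  have top : x ∈ {x | (x ∈ D.In ∧ μ.U3 ≤ D.U x) ∨ (x ∉ D.Om ∧ |dd D.v x| < T2)} →
      ∀ a, oR (D.gg x * psi D.v x ^ 2 * D.W x ^ 2 * D.lw x ^ 2) ≤ a + indicator
        {x | (x ∈ D.In ∧ μ.U3 ≤ D.U x) ∨ (x ∉ D.Om ∧ |dd D.v x| < T2)}
        (fun x => oR (1 / rs ^ 2) * oR (D.W x ^ 2)) x := fun hx a => by
    rw [indicator_of_mem hx, ← ENNReal.ofReal_mul (by positivity)]
    refine le_add_left (ENNReal.ofReal_le_ofReal ?_)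
    have h1 := E.gg_mem' x
    have h2 : psi D.v x ^ 2 ≤ 1 := pow_le_one₀ (E.bas.sol.psi_pos x).le (psi_le_one _ x)
    have h3 := E.lw_sq x
    calc _ ≤ 1 * 1 * D.W x ^ 2 * (1 / rs ^ 2) := by gcongr; exact h1.2
      _ = _ := by ring
  by_cases hx : x ∈ D.Om
  · by_cases h1 : |dd D.v x| ≤ D.Th x + 1
    · rcases le_total (D.U x) μ.U3 with h2 | h2
      · rw [indicator_of_mem (show x ∈ {x | x ∈ D.In ∧ D.U x ≤ μ.U3} from ⟨⟨hx, h1⟩, h2⟩)]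
        refine le_add_right (le_of_eq ?_)
        rw [Dat.gg, if_pos hx, Dat.dens]; congr 1; ring
      · exact top (Or.inl ⟨⟨hx, h1⟩, h2⟩) _
    · have : D.ch x = 0 := Real.smoothTransition.zero_of_nonpos (by linarith [not_le.1 h1])
      simp [Dat.gg, hx, this]
  · by_cases h1 : |dd D.v x| ≤ 1
    · exact top (Or.inr ⟨hx, by linarith [E.th.four]⟩) _
    · simp [Dat.gg, hx, h1]

theorem F_nonneg (x : EE n) : 0 ≤ D.F (tt D.v x) := by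
  have := E.bas.sol.tt_nonneg x
  unfold Dat.F; positivity

theorem GG_eq : D.GG = D.G1 + D.G2 +
    ∫⁻ x in {x | |dd D.v x| ≤ 1}, oR (D.Z x ^ 2 * D.lw x ^ 2 * D.W x ^ 2) := by
  have mt := E.bas.sol.tt_sm.continuous.measurable
  have mZ := E.ok.meas_Z E.bas
  have mW := E.ok.Wcd.continuous.measurable
  have ml := E.ok.continuous_lw.measurable
  have f0 := zero_le_one.trans E.ok.f1
  rw [Dat.GG, Dat.G1, Dat.G2, ← lintegral_const_mul' _ _ ENNReal.ofReal_ne_top,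
    ← lintegral_add_left (by fun_prop), ← lintegral_add_right _ (by fun_prop)]
  refine lintegral_congr fun x => ?_
  have t0 := E.bas.sol.tt_nonneg x
  have F0 := E.F_nonneg x
  rw [← ENNReal.ofReal_mul (by positivity), ← ENNReal.ofReal_add (by positivity) (by positivity),
    ← ENNReal.ofReal_add (by positivity) (by positivity), Dat.Gain]
  congr 1; ring

theorem G1_le : D.G1 ≤ D.GG := E.GG_eq ▸ le_add_right le_self_add
theorem G2_le : D.G2 ≤ D.GG := E.GG_eq ▸ le_add_right le_add_self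

theorem GG_le : D.GG ≤ D.G1 + D.G2 + oR 64 * D.GH μ + oR (1 / rs ^ 2) * D.TOP μ.U3 T2 := by
  rw [E.GG_eq, add_assoc (D.G1 + D.G2)]
  refine add_le_add_right ?_ _
  rw [Dat.GH, Dat.TOP, ← lintegral_const_mul' _ _ ENNReal.ofReal_ne_top,
    ← lintegral_const_mul' _ _ ENNReal.ofReal_ne_top, ← lintegral_indicator (E.meas_U_le _),
    ← lintegral_indicator (E.meas_top _), ← lintegral_indicator (T.meas_band E.bas.sol 1)]
  refine (lintegral_mono fun x => ?_).trans (le_of_eq (lintegral_add_right _ ?_))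
  swap
  · exact (measurable_const.mul (E.ok.Wcd.continuous.measurable.pow_const 2).ennreal_ofReal).indicator
      (E.meas_top _)
  by_cases h1 : x ∈ {x | |dd D.v x| ≤ 1}
  swap
  · rw [indicator_of_notMem h1]; exact zero_le
  have h1' : |dd D.v x| ≤ 1 := h1
  have h2 : |dd D.v x| < T2 := by linarith [E.th.four]
  rw [indicator_of_mem h1]
  by_cases hx : x ∈ D.Om ∧ D.U x ≤ μ.U3
  · rw [indicator_of_mem (show x ∈ {x | x ∈ D.In ∧ D.U x ≤ μ.U3} from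
      ⟨⟨hx.1, by linarith [E.th.lo x]⟩, hx.2⟩), ← ENNReal.ofReal_mul (by norm_num)]
    refine le_add_right (ENNReal.ofReal_le_ofReal ?_)
    have h3 : 1 ≤ 64 * psi D.v x ^ 2 := by nlinarith [T.psi_band E.bas.sol h1']
    rw [E.ch_one' h2, Dat.dens]
    nlinarith [mul_nonneg (mul_nonneg (sq_nonneg (D.Z x)) (sq_nonneg (D.lw x))) (sq_nonneg (D.W x))]
  · have : x ∈ {x | (x ∈ D.In ∧ μ.U3 ≤ D.U x) ∨ (x ∉ D.Om ∧ |dd D.v x| < T2)} := by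
      by_cases h3 : x ∈ D.Om
      · exact Or.inl ⟨⟨h3, by linarith [E.th.lo x]⟩, (not_le.1 fun h => hx ⟨h3, h⟩).le⟩
      · exact Or.inr ⟨h3, h2⟩
    rw [indicator_of_mem this, ← ENNReal.ofReal_mul (by positivity)]
    refine le_add_left (ENNReal.ofReal_le_ofReal ?_)
    have h3 := E.ok.Z_mem E.bas x
    have h4 : D.Z x ^ 2 ≤ 1 := pow_le_one₀ h3.1.le h3.2
    have h5 := E.lw_sq x
    calc _ ≤ 1 * (1 / rs ^ 2) * D.W x ^ 2 := by gcongr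
      _ = _ := by ring

end Ex

end

end Crest.Agent.N067.M
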