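import Crest.Agent.N067.Z.Defs
import Crest.Agent.N067.L.Abs

/-! # Row 67, TOP (helper53): the limit `ρm → ∞` -/

set_option autoImplicit false
set_option linter.dupNamespace false

open MeasureTheory Laplacian InnerProductSpace Topology Filter Set Metric
open scoped RealInnerProductSpace Gradient ContDiff ENNReal

namespace Crest.Agent.N067.M

open Crest.Agent.R077 Crest.Agent.N067.V Crest.Agent.N067.Y

noncomputable section

variable {n : ℕ}

theorem rt_mono_cap (β : Bo) (v : EE n → ℝ) {ρ ρ' : ℝ} (h : ρ ≤ ρ') (x : EE n) :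
    rt β v ρ x ≤ rt β v ρ' x := by
  have hb : BddBelow ({r | |dd v x| < r ∧ ¬ Fit β v x r} ∪ {ρ}) :=
    ⟨min |dd v x| ρ, fun r hr => hr.elim (fun h1 => min_le_of_left_le h1.1.le)
      fun h1 => min_le_of_right_le (le_of_eq (mem_singleton_iff.1 h1).symm)⟩
  refine le_csInf ⟨ρ', Or.inr rfl⟩ fun r hr => hr.elim (fun h1 => csInf_le hb (Or.inl h1))
    fun h1 => ?_
  rw [mem_singleton_iff.1 h1]
  exact (csInf_le hb (Or.inr rfl)).trans h

theorem wf_abs (D : Dat n) {C1 : ℝ} (h : 0 ≤ C1) (y : EE n) :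
    |D.wf C1 y| ≤ C1 * (|Real.log (D.M ^ 2)| + |Real.log (D.f0 / 80)|) := by
  have a1 := abs_nonneg (Real.log (D.M ^ 2))
  have a2 := abs_nonneg (Real.log (D.f0 / 80))
  have a3 := le_abs_self (Real.log (D.M ^ 2))
  have a4 := le_abs_self (Real.log (D.f0 / 80))
  have a5 := neg_abs_le (Real.log (D.M ^ 2))
  rw [Dat.wf, abs_mul, abs_of_nonneg h]
  refine mul_le_mul_of_nonneg_left (abs_le.2 ⟨le_max_of_le_left (by linarith),
    max_le (by linarith) ?_⟩) h
  split_ifs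
  · exact min_le_of_right_le (by linarith)
  · linarith

section mono

variable {D : Dat n} {K lam C1 rs ρ ρ' : ℝ} {x : EE n}

theorem cap_Om (D : Dat n) (C1 : ℝ) (h : ρ ≤ ρ') : (D.cap C1 ρ).Om ⊆ (D.cap C1 ρ').Om :=
  fun _ hx => ⟨hx.1, hx.2.1, hx.2.2.trans_le h⟩

theorem cap_U (O : (D.cap C1 ρ).Ok K lam C1 rs) (B : (D.cap C1 ρ).Bas) (h : ρ ≤ ρ')
    (hx : x ∈ (D.cap C1 ρ).Om) : (D.cap C1 ρ').U x ≤ (D.cap C1 ρ).U x := by
  have h1 : D.h (rt D.β D.v ρ' x) ≤ D.h (rt D.β D.v ρ x) :=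
    O.h_anti (lt_of_lt_of_le (by norm_num) (B.rp8 hx)) (rt_mono_cap _ _ h x)
  have h2 : D.h (rt D.β (ng D.v) ρ' x) ≤ D.h (rt D.β (ng D.v) ρ x) :=
    O.h_anti (lt_of_lt_of_le (by norm_num) (B.rm8 hx)) (rt_mono_cap _ _ h x)
  have h3 : 0 ≤ 1 + D.κ0 := add_nonneg zero_le_one O.k0.le
  exact max_le_max (add_le_add h1 h2) (mul_le_mul_of_nonneg_left (max_le_max h1 h2) h3)

theorem cap_Z (O : (D.cap C1 ρ).Ok K lam C1 rs) (B : (D.cap C1 ρ).Bas)
    (O' : (D.cap C1 ρ').Ok K lam C1 rs) (B' : (D.cap C1 ρ').Bas) (h : ρ ≤ ρ') (x : EE n) :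
    (D.cap C1 ρ').Z x ≤ (D.cap C1 ρ).Z x := by
  by_cases hx : x ∈ (D.cap C1 ρ).Om
  · have hx' := cap_Om D C1 h hx
    rw [O.Z_eq B hx, O'.Z_eq B' hx']
    exact O.zmono (O'.U_pos B' hx').le (O.U_pos B hx).le (cap_U O B h hx)
  · rw [show (D.cap C1 ρ).Z x = 1 from if_neg hx]
    exact (O'.Z_mem B' x).2

theorem cap_wf (O : (D.cap C1 ρ).Ok K lam C1 rs) (B : (D.cap C1 ρ).Bas)
    (O' : (D.cap C1 ρ').Ok K lam C1 rs) (B' : (D.cap C1 ρ').Bas) (h : ρ ≤ ρ') (h0 : 0 ≤ C1)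
    (x : EE n) : (D.cap C1 ρ).wf C1 x ≤ (D.cap C1 ρ').wf C1 x := by
  refine mul_le_mul_of_nonneg_left (max_le (le_max_left _ _) ?_) h0
  by_cases hx : x ∈ (D.cap C1 ρ).Om
  · have hx' := cap_Om D C1 h hx
    rw [if_pos hx, if_pos hx']
    exact le_max_of_le_right (min_le_min (neg_le_neg
      (Real.log_le_log (O'.U_pos B' hx') (cap_U O B h hx))) le_rfl)
  · rw [if_neg hx]
    exact le_max_left _ _

theorem cap_Th (O : (D.cap C1 ρ).Ok K lam C1 rs) (B : (D.cap C1 ρ).Bas)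
    (O' : (D.cap C1 ρ').Ok K lam C1 rs) (B' : (D.cap C1 ρ').Bas) (h : ρ ≤ ρ') (h0 : 0 ≤ C1)
    (x : EE n) : (D.cap C1 ρ).Th x ≤ (D.cap C1 ρ').Th x :=
  integral_mono (int_bav (φ0 n) (O.meas_wf B C1) (wf_abs _ h0) _)
    (int_bav (φ0 n) (O'.meas_wf B' C1) (wf_abs _ h0) _) fun y =>
    mul_le_mul_of_nonneg_left (cap_wf O B O' B' h h0 y) ((φ0 n).nonneg_normed _)

end mono

theorem convS (n : ℕ) : ConvStmt n := by
  intro D K C1 rs ρ0 h0 H x
  have hρ : ∀ a b : ℕ, a ≤ b → ρ0 + a ≤ ρ0 + b := fun a b h =>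
    add_le_add le_rfl (Nat.cast_le.2 h)
  have hT := tendsto_atTop_ciSup (f := fun m : ℕ => (D.cap C1 (ρ0 + m)).Th x)
    (fun a b h => cap_Th (H a).1 (H a).2 (H b).1 (H b).2 (hρ a b h) h0 x)
    ⟨C1 * Real.log D.f0, by rintro _ ⟨m, rfl⟩; exact (H m).1.Thi x⟩
  have hZ := tendsto_atTop_ciInf (f := fun m : ℕ => (D.cap C1 (ρ0 + m)).Z x)
    (fun a b h => cap_Z (H a).1 (H a).2 (H b).1 (H b).2 (hρ a b h) x)
    ⟨0, by rintro _ ⟨m, rfl⟩; exact ((H m).1.Z_mem (H m).2 x).1.le⟩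
  have hc : Tendsto (fun m : ℕ => (D.cap C1 (ρ0 + m)).ch x) atTop (𝓝 (Real.smoothTransition
      (1 - (|dd D.v x| - ⨆ m : ℕ, (D.cap C1 (ρ0 + m)).Th x)))) :=
    (Real.smoothTransition.continuous.tendsto _).comp ((hT.const_sub _).const_sub _)
  have h2 : ∀ᶠ m : ℕ in atTop, x ∈ (D.cap C1 (ρ0 + m)).Om →
      2 * min ((D.cap C1 (ρ0 + m)).rp x) ((D.cap C1 (ρ0 + m)).rm x) < ρ0 + m := by
    filter_upwards [(tendsto_natCast_atTop_atTop (R := ℝ)).eventually_gt_atTop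
      (4 * (1 / ph0 D.v x) - ρ0)] with m hm hx
    have : min ((D.cap C1 (ρ0 + m)).rp x) ((D.cap C1 (ρ0 + m)).rm x) ≤ 2 * (1 / ph0 D.v x) :=
      (H m).2.min_le hx
    linarith
  by_cases hx : ∃ m0 : ℕ, x ∈ (D.cap C1 (ρ0 + m0)).Om
  · obtain ⟨m0, hx⟩ := hx
    refine ⟨_, ((hc.pow 2).mul (hZ.pow 2)).congr' ?_, fun _ => h2⟩
    filter_upwards [eventually_ge_atTop m0] with m hm
    exact (if_pos (cap_Om D C1 (hρ _ _ hm) hx)).symm
  · refine ⟨if |dd D.v x| ≤ 1 then 1 else 0, tendsto_const_nhds.congr fun m => ?_, fun _ => h2⟩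
    exact (if_neg fun h => hx ⟨m, h⟩).symm

theorem limG (n : ℕ) : LimGStmt n := by
  intro hn v C0 κ1 c Co rs f0 Z0 Φ g A hv hCo hrs hf hZ hΦ mg mA bg cv low mi
  choose l hl hA using cv
  have t0 : (0 : ℝ) < θ0 := by norm_num [θ0]
  have t1 : (0 : ℝ) < 1 / θ0 := by positivity
  have mψ : Measurable (psi v) := by
    have := hv.1.continuous.measurable
    unfold psi; fun_prop
  have l0 : ∀ x, 0 ≤ l x := fun x => ge_of_tendsto' (hl x) fun m => (bg m x).1
  have l1 : ∀ x, l x ≤ 1 := fun x => le_of_tendsto' (hl x) fun m => (bg m x).2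
  have key := L.mi_of_lim (v := v) (γ := 11 / 10) (s := 51 / 50) (P := 3) (θ := 0) (b := 2)
    (C0 := C0) (κ1 := κ1) (c := c) (C := 2 ^ 20 * Co + 1) (rs := rs) (f0 := f0) (C1 := 1 / Z0 ^ 2)
    (z := fun _ => 0) (G := fun m x => g m x * psi v x ^ 2 / Z0 ^ 2)
    (J := fun m => (A m).indicator fun x => g m x ^ (1 / θ0) * psi v x ^ 2 / (Φ * Z0 ^ 2))
    (G' := fun x => l x * psi v x ^ 2 / Z0 ^ 2)
    (J' := fun x => l x ^ (1 / θ0) * psi v x ^ 2 / (Φ * Z0 ^ 2)) (by omega) hv (by norm_num)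
    le_rfl (by norm_num) hrs (fun m => ?_) tendsto_const_nhds
    (fun x => ((hl x).mul_const _).div_const _) (fun x => ?_)
  · refine ⟨_, _, key.mG, key.mJ, key.nG, key.nJ, ⟨(1 + (Φ * Z0 ^ 2) ^ θ0) / Z0 ^ 2, fun x => ?_⟩,
      key.low, key.mi⟩
    have p0 := hv.psi_pos x
    have a0 := l0 x
    have a1 := l1 x
    have a2 : 0 < (Φ * Z0 ^ 2) ^ θ0 := by positivity
    rw [Real.rpow_two]
    refine ⟨?_, ?_⟩
    · rw [div_mul_eq_mul_div]
      gcongr
      linarith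
    · rw [Real.div_rpow (by positivity) (by positivity), Real.mul_rpow (x := l x ^ (1 / θ0))
        (by positivity) (by positivity), ← Real.rpow_mul a0, one_div_mul_cancel t0.ne', Real.rpow_one,
        Real.rpow_sub (by positivity), Real.rpow_one]
      have a3 : 0 < (psi v x ^ 2) ^ θ0 := by positivity
      calc _ = (Φ * Z0 ^ 2) ^ θ0 / Z0 ^ 2 * (l x * (psi v x ^ 2) ^ θ0 / (Φ * Z0 ^ 2) ^ θ0) *
            (psi v x ^ 2 / (psi v x ^ 2) ^ θ0) := by field_simp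
        _ ≤ _ := by gcongr; linarith
  · have mm := mg m
    have mJ : Measurable fun x => g m x ^ (1 / θ0) * psi v x ^ 2 / (Φ * Z0 ^ 2) := by fun_prop
    have c1 : ∀ x, g m x * psi v x ^ 2 / Z0 ^ 2 ≤ 1 / Z0 ^ 2 * psi v x ^ (2 : ℝ) := fun x => by
      rw [Real.rpow_two, div_mul_eq_mul_div]
      gcongr
      exact (bg m x).2
    refine ⟨by fun_prop, mJ.indicator (mA m), fun x => by have := (bg m x).1; positivity,
      fun x => indicator_nonneg (fun y _ => by have := (bg m y).1; positivity) x, c1,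
      fun x => by simpa using c1 x, low m, fun I x0 r0 R hI h1 h2 h3 => ?_⟩
    have r0' : 0 < r0 := by linarith
    have R0 : 0 < R := by linarith
    have h := mi ⟨I, x0, r0, R⟩ m hI h1 h2 h3
    simp only at h
    have mW : Measurable (H.WW (11 / 10) I x0 r0 R) := (H.cd_WW r0').continuous.measurable
    have mr : Measurable (rh I x0 r0) := by unfold rh; fun_prop
    have mO : Measurable (Om x0 R) := by unfold Om; fun_prop
    have s1 : ∫⁻ x in ball x0 R, ENNReal.ofReal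
        (g m x * psi v x ^ 2 / Z0 ^ 2 * rh I x0 r0 x ^ (-(2 * (11 / 10 : ℝ)) - 2) +
          (A m).indicator (fun x => g m x ^ (1 / θ0) * psi v x ^ 2 / (Φ * Z0 ^ 2)) x *
            rh I x0 r0 x ^ (-(2 * (11 / 10 : ℝ)))) ≤ ENNReal.ofReal (1024 / Z0 ^ 2) *
        ((∫⁻ x, ENNReal.ofReal (g m x * psi v x ^ 2 * H.WW (11 / 10) I x0 r0 R x ^ 2 *
          (rh I x0 r0 x)⁻¹ ^ 2)) + ENNReal.ofReal Φ⁻¹ * (∫⁻ x in A m, ENNReal.ofReal
          (g m x ^ (1 / θ0) * psi v x ^ 2 * H.WW (11 / 10) I x0 r0 R x ^ 2))) := by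
      rw [← lintegral_const_mul _ (by fun_prop), ← lintegral_indicator (mA m),
        ← lintegral_add_left (by fun_prop), ← lintegral_const_mul' _ _ ENNReal.ofReal_ne_top]
      refine (setLIntegral_mono' measurableSet_ball fun x hx => ?_).trans
        (setLIntegral_le_lintegral _ _)
      have b0 := (bg m x).1
      have b1 := H.rh_pos (I := I) (c := x0) r0' x
      have b2 := H.le_WW_sq (γ := 11 / 10) (I := I) r0' hx
      have b3 : g m x * psi v x ^ 2 / Z0 ^ 2 * rh I x0 r0 x ^ (-(2 * (11 / 10 : ℝ)) - 2) ≤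
          1024 / Z0 ^ 2 * (g m x * psi v x ^ 2 * H.WW (11 / 10) I x0 r0 R x ^ 2 *
            (rh I x0 r0 x)⁻¹ ^ 2) := by
        rw [Real.rpow_sub b1, Real.rpow_two]
        calc _ ≤ g m x * psi v x ^ 2 / Z0 ^ 2 *
              (1024 * H.WW (11 / 10) I x0 r0 R x ^ 2 / rh I x0 r0 x ^ 2) := by gcongr
          _ = _ := by field_simp
      by_cases hx : x ∈ A m
      · rw [indicator_of_mem hx, indicator_of_mem hx, ← ENNReal.ofReal_mul (by positivity),
          ← ENNReal.ofReal_add (by positivity) (by positivity),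
          ← ENNReal.ofReal_mul (by positivity), mul_add]
        refine ENNReal.ofReal_le_ofReal (add_le_add b3 ?_)
        calc _ ≤ g m x ^ (1 / θ0) * psi v x ^ 2 / (Φ * Z0 ^ 2) *
              (1024 * H.WW (11 / 10) I x0 r0 R x ^ 2) := by gcongr
          _ = _ := by field_simp
      · rw [indicator_of_notMem hx, indicator_of_notMem hx, zero_mul, add_zero, add_zero,
          ← ENNReal.ofReal_mul (by positivity)]
        exact ENNReal.ofReal_le_ofReal b3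
    have s2 : ENNReal.ofReal (1 / R ^ 2) * (∫⁻ x, ENNReal.ofReal
        (g m x * psi v x ^ 2 * H.WW (11 / 10) I x0 r0 R x ^ 2)) ≤ ENNReal.ofReal (1024 * Z0 ^ 2) *
        ∫⁻ x, ENNReal.ofReal (R ^ (-2 : ℝ) * (g m x * psi v x ^ 2 / Z0 ^ 2 *
          rh I x0 r0 x ^ (-(2 * (11 / 10 : ℝ))) * Om x0 R x)) := by
      rw [← lintegral_const_mul' _ _ ENNReal.ofReal_ne_top,
        ← lintegral_const_mul' _ _ ENNReal.ofReal_ne_top]
      refine lintegral_mono fun x => ?_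
      have b0 := (bg m x).1
      have b2 := H.WW_sq_le (γ := 11 / 10) (I := I) (c := x0) r0' R0 x
      rw [← ENNReal.ofReal_mul (by positivity), ← ENNReal.ofReal_mul (by positivity),
        Real.rpow_neg R0.le, Real.rpow_two]
      refine ENNReal.ofReal_le_ofReal ?_
      calc _ ≤ 1 / R ^ 2 * (g m x * psi v x ^ 2 *
            (1024 * (rh I x0 r0 x ^ (-(2 * (11 / 10 : ℝ))) * Om x0 R x))) := by gcongr
        _ = _ := by field_simp
    have s3 : ENNReal.ofReal (Z0 ^ 2) * SRC v f0 ⟨I, x0, r0, R⟩ ≤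
        ENNReal.ofReal (1024 * Z0 ^ 2) * SRC v f0 ⟨I, x0, r0, R⟩ := by
      gcongr
      nlinarith [sq_nonneg Z0]
    refine (s1.trans (mul_le_mul_right (h.trans (mul_le_mul_right (add_le_add s2 s3) _)) _)).trans ?_
    rw [← mul_add, ← mul_assoc, ← mul_assoc, ← ENNReal.ofReal_mul (by positivity),
      ← ENNReal.ofReal_mul (by positivity)]
    refine mul_le_mul_left (ENNReal.ofReal_le_ofReal ?_) _
    rw [show 1024 / Z0 ^ 2 * Co * (1024 * Z0 ^ 2) = 2 ^ 20 * Co by field_simp; ring]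
    linarith
  · have t := (((hl x).rpow_const (Or.inr t1.le)).mul_const (psi v x ^ 2)).div_const (Φ * Z0 ^ 2)
    rcases (l0 x).eq_or_lt with h | h
    · rw [← h, Real.zero_rpow t1.ne', zero_mul, zero_div] at t ⊢
      refine squeeze_zero (fun m => indicator_nonneg (fun y _ => ?_) x)
        (fun m => indicator_le_self' (fun y _ => ?_) x) t
      · have := (bg m y).1; positivity
      · have := (bg m y).1; positivity
    · refine t.congr' ?_
      filter_upwards [hA x h] with m hm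
      rw [indicator_of_mem hm]

end

end Crest.Agent.N067.M
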