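import Crest.Agent.N067.Z.Defs
import Crest.Agent.N067.D.Ext

/-!
# Row 67, TOP (helper93): `desS : DesStmt`
-/

set_option autoImplicit false
set_option linter.dupNamespace false

open Topology Filter Set

namespace Crest.Agent.N067.D

variable {f be Ub U : ℝ}

theorem rpow34_le {x y : ℝ} (hx : 0 ≤ x) (hy : 0 ≤ y) (h : x ≤ y ^ 4) :
    x ^ (3 / 4 : ℝ) ≤ y ^ 3 := by
  calc x ^ (3 / 4 : ℝ) ≤ (y ^ 4) ^ (3 / 4 : ℝ) := by gcongr
    _ = y ^ 3 := by
      rw [← Real.rpow_natCast y 4, ← Real.rpow_mul hy, ← Real.rpow_natCast y 3]; norm_num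

theorem hT_le (hf : 100 ≤ f) : hT f ≤ 2 / f ^ 5 := by
  have f0 : 0 < f := by linarith
  have e : hT f = 2 / (27 * f ^ 5) * (4 / lam) ^ 4 := by rw [hT, h2, T1]; ring
  rw [e, lam, div_mul_eq_mul_div, div_le_div_iff₀ (by positivity) (by positivity)]
  nlinarith [pow_pos f0 5]

theorem pot2 (hf : 100 ≤ f) (Z : ZOut f be Ub) {r : ℝ} (hr : 0 < r) (h1 : h f r ≤ 80 / f) :
    |hd f r| * r * ζ f be Ub (h f r) * max 1 (r / f) ^ 3 ≤
      10 ^ 7 * ζ f be Ub (80 / f) * h f r := by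
  have H := hOut hf
  have f0 : 0 < f := by linarith
  have h0 := (H.hpos r hr).1
  have z0 := (Z.zbd _ h0).1
  have Z0 := (Z.zbd (80 / f) (by positivity)).1
  obtain ⟨t0, -, t2, t3⟩ := H.hT0
  have l0 : 0 < lam := by rw [lam]; norm_num
  rcases le_total r f with h3 | h3
  · rw [max_eq_left ((div_le_one f0).2 h3), one_pow, mul_one]
    have a1 := (H.hlow r hr h3).2
    have a3 := Z.zmono h1
    calc |hd f r| * r * ζ f be Ub (h f r) ≤ 3 / r * h f r * r * ζ f be Ub (80 / f) := by gcongr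
      _ = 3 * ζ f be Ub (80 / f) * h f r := by field_simp
      _ ≤ _ := by gcongr; norm_num
  rw [max_eq_right ((one_le_div f0).2 h3)]
  have a1 := Z.zsub _ h0 h1
  rcases eq_or_lt_of_le h3 with h4 | h4
  · subst h4
    have a2 := (H.hlow f hr le_rfl).2
    have a3 := Z.zmono h1
    rw [div_self hr.ne', one_pow, mul_one]
    calc |hd f f| * f * ζ f be Ub (h f f) ≤ 3 / f * h f f * f * ζ f be Ub (80 / f) := by gcongr
      _ = 3 * ζ f be Ub (80 / f) * h f f := by field_simp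
      _ ≤ _ := by gcongr; norm_num
  rcases le_total r (T1 f) with h5 | h5
  · have e1 : h f r = 2 / (27 * f ^ 5) * (5 / 2 * f - r) ^ 4 := by
      rw [h, if_neg (not_le.2 h4), if_pos h5, h2]
    have e2 : hd f r = -(8 / (27 * f ^ 5) * (5 / 2 * f - r) ^ 3) := by
      rw [hd, if_neg (not_le.2 h4), if_pos h5]
    set w := 5 / 2 * f - r with hw
    have w0 : 0 < w := by
      have : 0 < 4 / lam := by positivity
      rw [T1] at h5; linarith
    have w1 : w ≤ 2 * f := by linarith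
    have r1 : r ≤ 3 * f := by linarith
    have a2 : (f * h f r / 80) ^ (3 / 4 : ℝ) ≤ (w / f) ^ 3 := rpow34_le (by positivity)
      (by positivity) (by
        rw [e1, show f * (2 / (27 * f ^ 5) * w ^ 4) / 80 = 1 / 1080 * (w / f) ^ 4 by
          field_simp; norm_num]
        have : 0 ≤ (w / f) ^ 4 := by positivity
        linarith)
    have a3 : ζ f be Ub (h f r) ≤ ζ f be Ub (80 / f) * (w / f) ^ 3 := a1.trans (by gcongr)
    have a4 : |hd f r| = 4 / w * h f r := by
      rw [e2, abs_neg, abs_of_nonneg (by positivity), e1]; field_simp; norm_num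
    calc |hd f r| * r * ζ f be Ub (h f r) * (r / f) ^ 3
        ≤ 4 / w * h f r * r * (ζ f be Ub (80 / f) * (w / f) ^ 3) * (r / f) ^ 3 := by
          rw [a4]; gcongr
      _ = 4 * ((w / f) ^ 2 * (r / f) ^ 4) * ζ f be Ub (80 / f) * h f r := by field_simp
      _ ≤ 4 * ((2 * f / f) ^ 2 * (3 * f / f) ^ 4) * ζ f be Ub (80 / f) * h f r := by gcongr
      _ ≤ _ := by
        gcongr
        rw [mul_div_assoc, mul_div_assoc, div_self f0.ne']; norm_num
  · have a2 := H.hhigh r h3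
    have T0 : 0 < T1 f := by linarith
    set E := Real.exp (-(lam * (r - T1 f)) / 4) with hE
    have E0 : 0 < E := Real.exp_pos _
    have e4 : E ^ 4 = Real.exp (-(lam * (r - T1 f))) := by
      rw [hE, ← Real.exp_nat_mul]; congr 1; push_cast; ring
    have a3 : (f * h f r / 80) ^ (3 / 4 : ℝ) ≤ (E / f) ^ 3 := rpow34_le (by positivity)
      (by positivity) (by
        have := hT_le hf
        rw [H.tail r h5, ← e4]
        calc f * (hT f * E ^ 4) / 80 ≤ f * (2 / f ^ 5 * E ^ 4) / 80 := by gcongr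
          _ = 1 / 40 * (E / f) ^ 4 := by field_simp; norm_num
          _ ≤ _ := by
            have : 0 ≤ (E / f) ^ 4 := by positivity
            linarith)
    have a4 : ζ f be Ub (h f r) ≤ ζ f be Ub (80 / f) * (E / f) ^ 3 := a1.trans (by gcongr)
    -- `r √E ≤ T1`
    have a5 : r ^ 2 * E ≤ T1 f ^ 2 := by
      have b1 : r ≤ T1 f * Real.exp (lam * (r - T1 f) / 8) := by
        have := Real.add_one_le_exp (lam * (r - T1 f) / 8)
        have b2 : r - T1 f ≤ T1 f * (lam * (r - T1 f) / 8) := by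
          rw [lam]; nlinarith
        nlinarith
      calc r ^ 2 * E ≤ (T1 f * Real.exp (lam * (r - T1 f) / 8)) ^ 2 * E := by gcongr
        _ = T1 f ^ 2 * Real.exp (lam * (r - T1 f) / 8 + lam * (r - T1 f) / 8 +
              -(lam * (r - T1 f)) / 4) := by
          rw [Real.exp_add, Real.exp_add]; ring
        _ = _ := by
          rw [show lam * (r - T1 f) / 8 + lam * (r - T1 f) / 8 + -(lam * (r - T1 f)) / 4 = 0 by
            ring, Real.exp_zero, mul_one]
    have E1 : E ≤ 1 := Real.exp_le_one_iff.2 (by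
      have := mul_nonneg l0.le (sub_nonneg.2 h5); linarith)
    have a6 : r ^ 2 * E ≤ 9 * f ^ 2 := a5.trans (by nlinarith)
    calc |hd f r| * r * ζ f be Ub (h f r) * (r / f) ^ 3
        ≤ lam * h f r * r * (ζ f be Ub (80 / f) * (E / f) ^ 3) * (r / f) ^ 3 := by gcongr
      _ = lam * ((r ^ 2 * E) ^ 2 * E / f ^ 6) * ζ f be Ub (80 / f) * h f r := by field_simp
      _ ≤ lam * ((9 * f ^ 2) ^ 2 * 1 / f ^ 6) * ζ f be Ub (80 / f) * h f r := by gcongr
      _ ≤ _ := by
        gcongr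
        rw [show lam * ((9 * f ^ 2) ^ 2 * 1 / f ^ 6) = 81 * lam / f ^ 2 by field_simp; norm_num,
          div_le_iff₀ (by positivity), lam]
        nlinarith

theorem s_le (P : Par f be Ub) (Z : ZOut f be Ub) (U : ℝ) : s f be Ub U ≤ 11 / 10 := by
  have f0 := P.f0
  obtain ⟨t0, t1, -⟩ := (hOut P.f1).hT0
  obtain ⟨u0, u1, -⟩ := Z.ord
  have g1 : 2 / f < 80 / f := by gcongr; norm_num
  have c1 : ∀ a b', ch a b' U ≤ 1 := fun a b' => by unfold ch; split_ifs <;> norm_num
  unfold s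
  rcases lt_or_ge U (hT f) with h1 | h1
  · rw [ch_lt h1, ch_lt (a := 80 / f) (by linarith), ch_lt (a := U3 be Ub) (by linarith)]
    linarith [c1 0 (hT f)]
  rcases lt_or_ge U (80 / f) with h2 | h2
  · rw [ch_ge h1, ch_lt h2, ch_lt (a := U3 be Ub) (by linarith)]
    linarith [c1 (hT f) (80 / f)]
  rcases lt_or_ge U (U3 be Ub) with h3 | h3
  · rw [ch_ge h1, ch_ge h2, ch_lt h3]
    linarith [c1 (80 / f) (U3 be Ub)]
  · rw [ch_ge h1, ch_ge h2, ch_ge h3]
    linarith [c1 (U3 be Ub) (9 * U3 be Ub)]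

theorem b_half (P : Par f be Ub) (Z : ZOut f be Ub) (h : U ≤ 2 * U3 be Ub) :
    1 / 2 ≤ b f be Ub U := by
  have u0 := P.U30
  have b0 := P.be0
  have b1 := P.be1
  have u1 := P.Ub0
  have a0 : U ≤ 9 / 4 * U3 be Ub := by linarith
  have a1 := b_anti P a0
  have a2 := b_top P Z (U := 9 / 4 * U3 be Ub) (by linarith) (by linarith [Z.ord.2.2])
  rw [show Ub / (9 / 4 * U3 be Ub) = (2 / 3 * ((24 / 25 + be) / be)) ^ 2 by
    unfold U3; field_simp; norm_num, Real.sqrt_sq (by positivity)] at a2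
  have a3 : be * (2 / 3 * ((24 / 25 + be) / be) - 1) = 2 / 3 * (24 / 25 + be) - be := by
    field_simp
  linarith

end Crest.Agent.N067.D

namespace Crest.Agent.N067.M

open D

theorem desS : DesStmt := by
  refine ⟨10 ^ 7, by norm_num, fun M be hM hbe => ?_⟩
  have M0 : 0 < M := by linarith
  set Ub : ℝ := 400 / M ^ 2 with hUb
  set b' : ℝ := min (be / 10) (1 / 100) with hb'
  have b0 : 0 < b' := lt_min (by positivity) (by norm_num)
  have Ub0 : 0 < Ub := by positivity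
  have Ub1 : Ub ≤ 1 := by rw [hUb, div_le_one (by positivity)]; nlinarith
  have Ub4 : Ub / 400 = 1 / M ^ 2 := by rw [hUb]; ring
  have u0 : 0 < U3 b' Ub := by unfold U3; positivity
  refine ⟨U3 b' Ub, max (max 100 ((80 / U3 b' Ub) ^ 102)) (1 / U3 b' Ub ^ 2), u0, fun f hf => ?_⟩
  have hf1 : 100 ≤ f := ((le_max_left _ _).trans (le_max_left _ _)).trans hf
  have P : Par f b' Ub := ⟨hf1, b0, min_le_right _ _, Ub0, Ub1,
    ((le_max_right _ _).trans (le_max_left _ _)).trans hf⟩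
  have H := hOut hf1
  have Z := zOut P H
  have f0 := P.f0
  obtain ⟨-, o1, o2⟩ := Z.ord
  have hk : ∀ U, 99 / 100 * kap f U ≤ (1 - et) * kap f U / ((1 + ep + k0) * (1 + k0)) := fun U =>
    k_ge (H.bkap U).1 (by norm_num [et]) (by norm_num [ep]) (by norm_num [ep]) (by norm_num [k0])
      (by norm_num [k0])
  refine ⟨h f, hd f, ζ f b' Ub, ⟨s f b' Ub, b f b' Ub, bu f b' Ub, kap f, H2 f, U3 b' Ub, be⟩,
    rfl, rfl, ⟨H.hpos, H.hlow, H.hhigh, Z.zmono.monotoneOn _, Z.zcont, Z.zbd,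
      fun U hU => (Z.ztop U ?_).1, Z.z2, Z.z1, Z.zdec, ⟨o1, by dsimp only; linarith, ?_⟩, hbe.le,
      H.mhd, H.des, H.mkap, fun U => abs_le.2 ⟨by linarith [(H.bkap U).1], (H.bkap U).2⟩,
      fun a ha b hb => H.kato k0 a b (by norm_num [k0]) ha hb, ⟨Z.lip.1, Z.lip.2.1⟩,
      ⟨_, Z.fin.countable, fun U hU hN => ⟨(Z.der U hU hN).1, (Z.der U hU hN).2.1⟩⟩,
      ⟨Z.meas.1, Z.meas.2.1, Z.meas.2.2.1⟩, fun U hU => ?_, fun U hU => (Z.bzero U hU).1,
      fun U hU h1 => (admk P Z hU (by dsimp only at h1; linarith) (hk U)).1,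
      fun U _ h1 => b_half P Z h1, fun U h1 => ?_, fun U U' hU hU' h1 => ?_,
      fun y hy => ⟨(H.one y hy).1, (H.one y hy).2.1⟩,
      fun U hU => (Z.bmain U (le_trans (by gcongr; norm_num) hU)).1,
      fun r hr h1 => pot2 hf1 Z hr h1, fun U h1 h2 => (Z.zmain U h1 h2).ge,
      fun r hr => Z.zbad1 r (by linarith), Z.zbad2,
      ⟨3 * Real.exp (lam * T1 f), fun r hr => le_trans (Z.zmono ?_) (Z.zup r (by linarith))⟩⟩⟩
  · refine o2.trans (le_trans ?_ hU)
    rw [Ub4, div_le_div_iff₀ (by positivity) (by positivity)]; nlinarith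
  · have := (le_max_right _ _).trans hf
    rwa [div_le_iff₀ (by positivity)] at this
  · obtain ⟨q1, -, q3, q4, q5, q6, -⟩ := Z.q2 U hU
    exact ⟨q1, s_le P Z U, q3, q4, abs_le.2 ⟨by dsimp only; linarith, by dsimp only; linarith⟩⟩
  · dsimp only at h1
    have hU := u0.trans_le h1
    obtain ⟨q1, q2, q3, q4, -⟩ := Z.q2 U hU
    refine ⟨by dsimp only; linarith, ?_⟩
    dsimp only [Mu.a]
    split_ifs with h2
    · obtain ⟨r1, -, r3, r4⟩ := Z.q3 U (Ub4 ▸ h2)
      have k1 := hk U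
      have : b' ≤ be / 10 := min_le_left _ _
      rw [r4] at k1 ⊢
      rw [r1]
      nlinarith
    · have a1 := (admk P Z hU (by rw [Ub4]; exact (not_le.1 h2).le) (hk U)).2
      have a2 : s f b' Ub U ^ 2 ≤ 2 * b f b' Ub U := by nlinarith [s_le P Z U]
      rw [ep] at a1 ⊢
      linarith
  · have a1 := b_ratio P Z hU hU' (Ub4 ▸ h1)
    have a2 := (Z.q2 U' hU').2.2.1
    have a3 : 0 ≤ max 1 (U' / U) * b f b' Ub U' := by positivity
    dsimp only
    linarith
  · linarith [(H.hpos r (by linarith)).1]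

end Crest.Agent.N067.M
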