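import Crest.Agent.N067.Z.I
import Crest.Agent.N067.Z.Flip

/-!
# Row 67, TOP (helper72): the leaf FINITE

Every integrand is bounded by a constant multiple of the integrable function `W²`.
-/

set_option autoImplicit false
set_option linter.dupNamespace false
set_option linter.unusedSectionVars false

open MeasureTheory Laplacian InnerProductSpace Topology Filter Set Metric
open scoped RealInnerProductSpace Gradient ContDiff ENNReal

namespace Crest.Agent.N067.M

open Crest.Agent.R077 Crest.Agent.N067.V Crest.Agent.N067.Y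

noncomputable section

variable {n : ℕ} {D : Dat n} {μ : Mu} {p : Wp n} {K C1 rs ηt C T2 τ : ℝ} {x : EE n}

namespace Ex

variable (E : Ex D μ p K C1 rs ηt C T2 τ)
include E

theorem int_W_sq : Integrable fun x => D.W x ^ 2 := by
  rw [E.hW]
  exact H.integrable_WW_sq E.n9 (by norm_num) (E.hr.1.trans E.hr.2.1)
    (by linarith [E.hr.1, E.hr.2.1, E.hr.2.2.1])

theorem fin_of {S : Set (EE n)} {f : EE n → ℝ} (A : ℝ)
    (h : ∀ᵐ x ∂volume.restrict S, f x ≤ A * D.W x ^ 2) :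
    ∫⁻ x in S, ENNReal.ofReal (f x) ≠ ⊤ :=
  ne_top_of_le_ne_top (E.int_W_sq.const_mul A).lintegral_lt_top.ne
    ((lintegral_mono_ae (h.mono fun _ hx => ENNReal.ofReal_le_ofReal hx)).trans
      (setLIntegral_le_lintegral _ _))

theorem lw_le_one (x : EE n) : D.lw x ≤ 1 :=
  (E.ok.lwpos x).2.trans ((div_le_one (by linarith [E.hr.1])).2 E.hr.1)

theorem Z_sq_le (x : EE n) : D.Z x ^ 2 ≤ 1 :=
  pow_le_one₀ (E.ok.Z_mem E.bas x).1.le (E.ok.Z_mem E.bas x).2

theorem cd_le (x : EE n) : D.ch x ^ 2 * D.dens x ≤ D.W x ^ 2 := by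
  have h1 : D.ch x ^ 2 ≤ 1 :=
    pow_le_one₀ (Real.smoothTransition.nonneg _) (Real.smoothTransition.le_one _)
  rw [Dat.dens, ← mul_assoc]
  exact mul_le_of_le_one_left (sq_nonneg _) (mul_le_one₀ h1 (by positivity)
    (mul_le_one₀ (W.psi_sq_le E.bas.sol x) (sq_nonneg _) (E.Z_sq_le x)))

theorem cd_mul_le {a A : ℝ} (x : EE n) (h : a ≤ A) (hA : 0 ≤ A) :
    D.ch x ^ 2 * D.dens x * a ≤ A * D.W x ^ 2 := by
  have h0 : 0 ≤ D.ch x ^ 2 * D.dens x := by rw [Dat.dens]; positivity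
  exact (mul_le_mul_of_nonneg_left h h0).trans
    ((mul_le_mul_of_nonneg_right (E.cd_le x) hA).trans_eq (mul_comm _ _))

theorem norm_grad_W (x : EE n) : ‖∇ D.W x‖ ≤ K * D.W x :=
  (E.ok.Wlip x).trans (mul_le_mul_of_nonneg_right
    (mul_le_of_le_one_right (by linarith [E.ok.K1]) (E.lw_le_one x)) (E.W_pos x).le)

theorem kept_fin : D.Kept (D.th μ) ≠ ⊤ := by
  refine E.fin_of (3 * (D.M * D.ρm ^ 2) ^ 2)
    (ae_restrict_of_forall_mem (E.ok.meas_In E.bas) fun x hx => E.cd_mul_le x ?_ (by positivity))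
  have r8 := E.bas.rp8 hx.1
  have h1 := E.ok.th_three E.bas (by norm_num [la]) E.th1 hx.1
  have h2 : ‖∇ D.rp x‖ ≤ D.M * D.ρm ^ 2 := (E.bas.p.grad x hx.1).trans
    (mul_le_mul_of_nonneg_left (pow_le_pow_left₀ (by linarith [E.bas.p.eight hx.1])
      (E.bas.p.le x hx.1) 2) (by linarith [E.hM]))
  have h3 := E.th1.nonneg x
  refine (div_le_self (by positivity) (by linarith)).trans ?_
  gcongr

end Ex

theorem finS (n : ℕ) : FinStmt n := fun D μ p K C1 rs ηt C T2 τ E => by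
  have B := E.bas
  have K1 := E.ok.K1
  obtain ⟨A, hA⟩ := E.out.bd
  refine ⟨E.fin_of ((2 * |A| + K) ^ 2) ?_, E.fin_of (6 / 5 * |A| ^ 2) ?_,
    E.fin_of 1 (ae_of_all _ fun x => E.cd_mul_le x
      (pow_le_one₀ (E.ok.lwpos x).1.le (E.lw_le_one x)) zero_le_one),
    E.fin_of (2 + D.Z0 ^ 2 * D.f0 ^ 3) (ae_of_all _ fun x => ?_), E.kept_fin, E.flip.kept_fin, ?_⟩
  · refine (ae_restrict_iff' (isOpen_lt B.sol.dd_sm.continuous.abs
      continuous_const).measurableSet).2 ?_
    filter_upwards [zgS n D μ p K C1 rs ηt C T2 τ E, hA] with x h1 h2 hx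
    have W0 := E.W_pos x
    have hW := E.norm_grad_W x
    have h3 : ‖∇ D.zz x‖ ≤ (2 * |A| + K) * D.W x := by
      by_cases ho : x ∈ D.Om
      · obtain ⟨s0, s1, -⟩ := E.des.bd _ (E.out.pos x ho)
        have z := E.ok.Z_mem B x
        have a1 : ‖D.XX x‖ ≤ |A| := (h2 ho).1.trans (le_abs_self A)
        have a2 : ‖D.VV x‖ ≤ K := by
          rw [Dat.VV, norm_smul, norm_inv, Real.norm_of_nonneg W0.le, inv_mul_le_iff₀ W0]
          linarith
        have a3 : ‖μ.s (D.U x) • D.XX x + D.VV x‖ ≤ 2 * |A| + K := by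
          refine (norm_add_le _ _).trans (add_le_add ?_ a2)
          rw [norm_smul, Real.norm_of_nonneg s0]
          exact mul_le_mul (by linarith) a1 (norm_nonneg _) zero_le_two
        rw [(h1 hx).1 ho, norm_smul, Dat.zz, Real.norm_of_nonneg (mul_pos z.1 W0).le, mul_comm]
        exact mul_le_mul a3 (mul_le_of_le_one_left W0.le z.2) (mul_pos z.1 W0).le (by positivity)
      · rw [(h1 hx).2 ho]
        exact hW.trans (mul_le_mul_of_nonneg_right (by linarith [abs_nonneg A]) W0.le)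
    rw [gsq_eq, ← mul_pow (2 * |A| + K)]
    exact (mul_le_of_le_one_left (sq_nonneg _) (W.psi_sq_le B.sol x)).trans
      (pow_le_pow_left₀ (norm_nonneg _) h3 2)
  · refine (ae_restrict_iff' (E.ok.meas_In B)).2 ?_
    filter_upwards [hA] with x h2 hx
    obtain ⟨-, -, b0, b1, -⟩ := E.des.bd _ (E.out.pos x hx.1)
    refine E.cd_mul_le x (mul_le_mul b1 ?_ (sq_nonneg _) (by norm_num)) (by positivity)
    exact pow_le_pow_left₀ (norm_nonneg _) ((h2 hx.1).1.trans (le_abs_self A)) 2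
  · refine mul_le_mul_of_nonneg_right ?_ (sq_nonneg _)
    have t0 := B.sol.tt_nonneg x
    have t1 := tt_le_one D.v x
    have f0 : 0 < D.f0 := one_pos.trans_le E.ok.f1
    have a1 := mul_le_one₀ t1 (sq_nonneg _) (E.Z_sq_le x)
    have a2 := mul_le_one₀ (E.Z_sq_le x) (sq_nonneg _)
      (pow_le_one₀ (n := 2) (E.ok.lwpos x).1.le (E.lw_le_one x))
    have a3 : D.F (tt D.v x) ≤ 1 := by
      refine (div_le_self (Real.rpow_nonneg t0 _) (Real.one_le_sqrt.2 ?_)).trans
        (Real.rpow_le_one t0 t1 (by norm_num))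
      exact le_add_of_nonneg_right (by positivity)
    have a4 := mul_le_of_le_one_right (by positivity : 0 ≤ D.Z0 ^ 2 * D.f0 ^ 3) a3
    rw [Dat.Gain]
    linarith
  · rw [Dat.RR, ← setLIntegral_univ]
    refine E.fin_of 1 (ae_of_all _ fun x => mul_le_mul_of_nonneg_right
      (mul_le_one₀ ?_ (sq_nonneg _) (W.psi_sq_le B.sol x)) (sq_nonneg _))
    rw [Dat.gg]
    split_ifs
    · exact mul_le_one₀ (pow_le_one₀ (Real.smoothTransition.nonneg _)
        (Real.smoothTransition.le_one _)) (sq_nonneg _) (E.Z_sq_le x)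
    · exact le_rfl
    · exact zero_le_one

end

end Crest.Agent.N067.M
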