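import Crest.Agent.N067.Z.Defs
import Crest.Agent.N067.T.Dat

/-! # Z/GT (helper69): the leaves GT, CORE and MID of the assembly -/

set_option autoImplicit false
set_option linter.dupNamespace false

open MeasureTheory Laplacian InnerProductSpace Topology Filter Set Metric
open scoped RealInnerProductSpace Gradient ContDiff ENNReal

namespace Crest.Agent.N067.M

open Crest.Agent.R077 Crest.Agent.N067.V Crest.Agent.N067.Y

noncomputable section

variable {n : ℕ}

/-- comparison of integrals over two sets -/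
theorem setL_le {S T : Set (EE n)} {f g : EE n → ℝ≥0∞} (hT : MeasurableSet T) (hS : MeasurableSet S)
    (h : ∀ x ∈ S, f x ≠ 0 → x ∈ T ∧ f x ≤ g x) : ∫⁻ x in S, f x ≤ ∫⁻ x in T, g x := by
  rw [← lintegral_indicator hS, ← lintegral_indicator hT]
  refine lintegral_mono fun x => ?_
  by_cases hx : x ∈ S
  · rw [indicator_of_mem hx]
    by_cases h0 : f x = 0
    · rw [h0]; exact zero_le
    · rw [indicator_of_mem (h x hx h0).1]; exact (h x hx h0).2
  · rw [indicator_of_notMem hx]; exact zero_le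

/-- **GT** -/
theorem gtS (n : ℕ) : GTStmt n := by
  classical
  intro K e he
  obtain ⟨Cf, Ct, t1, hT, hN⟩ := exists_nm (φ0 n) le_rfl
  refine ⟨1, fun C1 h1 C2 h2 => ?_⟩
  obtain ⟨M0, -, hN⟩ := hN C1 C2 h1 h2
  have c0 : 0 < Ct * C1 ^ 2 := by positivity
  obtain ⟨Ms, hG⟩ := T.gtB n K C1 C2 (e / (4 * (Ct * C1 ^ 2))) (by linarith) (by positivity)
  refine ⟨max M0 Ms, fun M hM => ⟨max Ms (80 * M ^ 2), ?_⟩⟩
  intro D μ p rs ηt C T2 τ e2 eM hf E eT
  subst eM
  have O := E.ok
  have B := E.bas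
  have N := hN D O.pos e2 (le_of_max_le_left hM) (le_of_max_le_right hf)
  have f0 : 0 < D.f0 := one_pos.trans_le O.f1
  set U' : EE n → ℝ := fun x => if x ∈ D.Om then D.U x else 1 with hU'
  have mU : Measurable U' :=
    ContinuousOn.measurable_piecewise (f := D.U) (g := fun _ => 1) (O.U_cont B) continuousOn_const
      B.op.measurableSet
  have gX0 : ∀ y, D.gX y ≠ 0 → y ∈ D.Om ∧ 80 / D.f0 ≤ D.U y ∧ D.U y ≤ 1 / D.M ^ 2 := fun y hy => by
    by_contra h
    exact hy (if_neg h)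
  have key := hG D la rs O B e2 (le_of_max_le_right hM) (le_of_max_le_left hf) D.gX
    (fun x => μ.b (D.U x)) (fun y => 4 * μ.b (U' y)) (O.meas_gX B)
    ((E.des.meas.2.1.comp mU).const_mul 4)
    (fun y => mul_nonneg (by norm_num) (E.des.bd _ (by
      simp only [hU']; split_ifs with h; exacts [O.U_pos B h, one_pos])).2.2.1)
    fun y hy => by
      obtain ⟨y1, y2, y3⟩ := gX0 y hy
      refine ⟨y1, y2, fun x hx a ha h => ?_⟩
      have u0 := O.U_pos B hx
      have u1 := O.U_pos B y1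
      have b0 := (E.des.bd _ u1).2.2.1
      simp only [hU', if_pos y1]
      have m0 : 0 < max (D.U x) (1 / D.f0) := lt_max_of_lt_left u0
      have a1 := E.des.bcmp _ _ m0 u1 y3
      have a2 : max 1 (D.U y / max (D.U x) (1 / D.f0)) ≤ a :=
        max_le ha ((div_le_iff₀ m0).2 h)
      have a3 : μ.b (max (D.U x) (1 / D.f0)) ≤ 3 * a * μ.b (D.U y) := a1.trans (by gcongr)
      rcases le_total (D.U x) (1 / D.f0) with k | k
      · rw [max_eq_right k] at a3
        have a4 : 1 / D.f0 ≤ 80 / D.f0 := by gcongr; norm_num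
        have a5 := E.des.half (1 / D.f0) (by positivity)
          (by linarith [E.des.U3.1, show 0 < 1 / D.f0 by positivity])
        nlinarith [(E.des.bd _ u0).2.2.2.1, mul_nonneg (zero_le_one.trans ha) b0]
      · rw [max_eq_left k] at a3
        nlinarith [mul_nonneg (zero_le_one.trans ha) b0]
  have d0 : ∀ z, 0 ≤ D.dens z := fun z => by unfold Dat.dens; positivity
  calc D.GT μ ≤ ∫⁻ x in D.Cut, ENNReal.ofReal (Ct * C1 ^ 2) *
        (ENNReal.ofReal (μ.b (D.U x) * D.dens x) * ∫⁻ y in ball (ft D.v x) 1, D.gX y) := by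
        refine setLIntegral_mono' (O.meas_Cut B) fun x hx => ?_
        have := O.grad_Th B N hT (by norm_num [la]) hx.1.1
        rw [show (D.cut (φ0 n) C1).Th = D.Th from eT.symm] at this
        rw [← mul_assoc (D.dens x), mul_comm (D.dens x), ENNReal.ofReal_mul
          (mul_nonneg (E.des.bd _ (O.U_pos B hx.1.1)).2.2.1 (d0 x)), mul_left_comm]
        exact mul_le_mul_right this _
    _ ≤ ENNReal.ofReal (Ct * C1 ^ 2) * (ENNReal.ofReal (e / (4 * (Ct * C1 ^ 2))) *
        (ENNReal.ofReal 4 * D.GB μ)) := by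
        rw [lintegral_const_mul' _ _ ENNReal.ofReal_ne_top]
        refine mul_le_mul_right (key.trans (mul_le_mul_right ?_ _)) _
        rw [Dat.GB, ← lintegral_const_mul' _ _ ENNReal.ofReal_ne_top]
        refine setL_le (O.meas_In B) (T.meas_band B.sol 2) fun y hy h0 => ?_
        have g0 := gX0 y (right_ne_zero_of_mul h0)
        have a1 : |dd D.v y| ≤ 2 := hy
        have a2 := E.th.lo y
        have a3 := E.th.four
        refine ⟨⟨g0.1, by linarith⟩, le_of_eq ?_⟩
        have b0 := (E.des.bd _ (O.U_pos B g0.1)).2.2.1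
        have d1 := d0 y
        rw [Dat.gX, if_pos g0, Dat.ch, Real.smoothTransition.one_of_one_le (by linarith), gsq_eq]
        simp only [hU', if_pos g0.1]
        rw [← ENNReal.ofReal_mul (by positivity), ← ENNReal.ofReal_mul (by norm_num)]
        congr 1
        change _ * ‖D.XX y‖ ^ 2 = _
        ring
    _ = _ := by
        rw [← mul_assoc, ← mul_assoc, ← ENNReal.ofReal_mul c0.le,
          ← ENNReal.ofReal_mul (by positivity)]
        congr 2; field_simp

/-- **CORE** -/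
theorem coreS (n : ℕ) : CoreStmt n := by
  intro K C2 M U1 T2 hU
  obtain ⟨A, fs, hA, h⟩ := T.coreD n (max T2 (|C2| * (8 / U1)))
    (min (U1 / 8) (1 / (2 * max M 1))) K (by positivity)
  refine ⟨A, max fs (4 / U1), hA.le, fun D μ p C1 rs ηt C τ e2 eM hf E => ?_⟩
  have O := E.ok
  have B := E.bas
  refine le_trans (lintegral_mono_set fun x hx => ?_)
    (h D la C1 rs O B (le_of_max_le_left hf))
  have p0 := B.ph x
  rcases hx with ⟨h1, h2⟩ | ⟨h1, h2⟩
  · have f1 := O.f1
    have a1 := T.U_le_ph O B h1.1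
    have a2 : 2 / D.ρm ≤ U1 / 2 := by
      have := le_of_max_le_right hf
      rw [div_le_iff₀ hU] at this
      rw [div_le_iff₀ (lt_of_lt_of_le (by positivity) O.rm)]
      nlinarith [O.rm, mul_le_mul_of_nonneg_left (show D.f0 ≤ D.ρm by nlinarith [O.rm]) hU.le]
    have a3 : U1 / 8 ≤ ph0 D.v x := by linarith
    refine ⟨le_max_of_le_right ?_, min_le_of_left_le a3⟩
    have a4 : 1 / ph0 D.v x ≤ 8 / U1 := by
      rw [div_le_div_iff₀ p0 hU]; linarith
    have a5 : 0 ≤ Real.log (1 / ph0 D.v x) :=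
      Real.log_nonneg (B.M1.trans (B.rho h1.1).le)
    have a6 := Real.log_le_sub_one_of_pos (one_div_pos.2 p0)
    calc _ ≤ D.C2 * Real.log (1 / ph0 D.v x) := h1.1.2.1.le
      _ ≤ |C2| * Real.log (1 / ph0 D.v x) := by rw [e2]; gcongr; exact le_abs_self _
      _ ≤ _ := by gcongr; linarith
  · refine ⟨le_max_of_le_left h2.le, min_le_of_right_le (not_lt.1 fun h3 => h1 ?_)⟩
    rw [← eM, max_eq_left B.M1] at h3
    exact E.th.supp x h3.le (by linarith [E.th.lo x])

/-- **MID** -/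
theorem midS (hX : X5Stmt n) (hB : BadStmt n) : MidStmt n := by
  intro K
  have s2 : 1.414 ≤ √2 := Real.le_sqrt_of_sq_le (by norm_num)
  obtain ⟨e1, he1, hB⟩ := hB la (99 / 100) (by norm_num) (by norm_num [la])
    (by rw [la]; linarith)
  obtain ⟨e0, lw0, he0, hl0, h⟩ := T.midD hX (b := 99 / 100) (by norm_num) (by norm_num)
  refine ⟨e1, he1, fun β hβ e he => ?_⟩
  obtain ⟨e', C, fs, he', hC, h⟩ := h K 50 e (by norm_num) he
  refine ⟨1024 * C, by positivity, ((hB β hβ K la k0 e0 e' (by norm_num [la]) (by norm_num [la])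
    he0 he').and (big_num n K la k0 β (max fs (50 / lw0)))).mono ?_⟩
  rintro D ⟨hb, -, -, -, hf, -⟩ μ p C1 rs ηt C' T2 τ E
  have O := E.ok
  have f1 := O.f1
  have f0 : 0 < D.f0 := by linarith
  obtain ⟨r1, r2, r3, r4⟩ := E.hr
  have r0 : 0 < p.r0 := by linarith
  have m1 := le_max_left p.r0 D.f0
  have m2 := le_max_right p.r0 D.f0
  have m3 : max p.r0 D.f0 ≤ p.R := max_le r3 r4
  set r := max p.r0 D.f0
  have g0 : (0 : ℝ) ≤ 11 / 10 := by norm_num
  have key := h D (fun x => H.WW (11 / 10) p.I p.x0 r p.R x ^ 2) la C1 rs O E.bas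
    (le_of_max_le_left hf)
    (H.wt_WW_sq E.n9 g0 (f1.trans m2) m3 (by
      have := le_of_max_le_right hf
      rw [div_le_iff₀ hl0] at this
      rw [div_le_iff₀ (by linarith)]
      nlinarith))
    (fun x => by
      rw [E.hW]
      exact pow_le_pow_left₀ (H.WW_pos (by linarith) x).le (H.WW_anti g0 r0 m1 x) 2)
    (fun x hx => by
      rw [E.hl, one_div, inv_le_inv₀ (H.rh_pos r0 x) f0] at hx
      have a1 := H.WW_le_four (I := p.I) (c := p.x0) (R := p.R) g0 (by norm_num) (r1 := r)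
        (by linarith) (max_le (le_rh p.I p.x0 x) hx)
      have a2 := pow_le_pow_left₀ (H.WW_pos r0 x).le a1 2
      rw [E.hW]
      nlinarith [sq_nonneg (H.WW (11 / 10) p.I p.x0 r p.R x)])
    (fun x => by
      refine (H.norm_grad_WW_sq g0 (by linarith) m3 x).trans ?_
      have a1 := H.rh_pos (I := p.I) (c := p.x0) (r0 := r) (by linarith) x
      gcongr
      · norm_num
      · rw [E.hl, one_div]
        exact le_min (inv_anti₀ (H.rh_pos r0 x) (H.rh_mono r0.le m1 x))
          (inv_anti₀ f0 (m2.trans (le_rh p.I p.x0 x))))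
    E.des.bad2 (hb E.des.bad1 E.des.bad2)
  have z0 : 0 ≤ D.Z0 ^ 2 * D.f0 ^ 3 := by positivity
  rw [Dat.G2, ← lintegral_const_mul' _ _ ENNReal.ofReal_ne_top]
  simp only [← ENNReal.ofReal_mul z0, ← mul_assoc]
  refine key.trans (add_le_add_right ?_ _)
  rw [SRC, ← lintegral_const_mul' _ _ ENNReal.ofReal_ne_top,
    ← lintegral_const_mul' _ _ ENNReal.ofReal_ne_top]
  refine lintegral_mono fun x => ?_
  rw [← ENNReal.ofReal_mul hC, ← ENNReal.ofReal_mul (by positivity)]
  refine ENNReal.ofReal_le_ofReal ?_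
  have a0 := H.rh_pos (I := p.I) (c := p.x0) r0 x
  have a1 : D.f0 ^ 3 * min (D.lw x) (1 / D.f0) ^ 5 ≤
      min (D.f0 ^ (-2 : ℝ)) (D.f0 ^ (3 : ℝ) * rh p.I p.x0 p.r0 x ^ (-(3 : ℝ) - 2)) := by
    have b0 : 0 ≤ min (D.lw x) (1 / D.f0) := le_min (O.lwpos x).1.le (by positivity)
    refine le_min ?_ ?_
    · calc _ ≤ D.f0 ^ 3 * (1 / D.f0) ^ 5 := by gcongr; exact min_le_right _ _
        _ = _ := by rw [Real.rpow_neg f0.le, Real.rpow_two]; field_simp
    · calc _ ≤ D.f0 ^ 3 * D.lw x ^ 5 := by gcongr; exact min_le_left _ _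
        _ = _ := by
          rw [E.hl, show (-(3 : ℝ) - 2) = -((5 : ℕ) : ℝ) by norm_num, Real.rpow_neg a0.le,
            Real.rpow_natCast, show (3 : ℝ) = ((3 : ℕ) : ℝ) by norm_num, Real.rpow_natCast, inv_pow]
  have a2 := H.WW_sq_le (γ := 11 / 10) (I := p.I) (c := p.x0) r0 (r0.trans_le r3) x
  rw [← E.hW] at a2
  have b0 : 0 ≤ D.f0 ^ 3 * min (D.lw x) (1 / D.f0) ^ 5 := by
    have := le_min (O.lwpos x).1.le (show 0 ≤ 1 / D.f0 by positivity)
    positivity
  rw [Real.rpow_two]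
  calc _ = C * D.Z0 ^ 2 * psi D.v x ^ 2 *
        (D.f0 ^ 3 * min (D.lw x) (1 / D.f0) ^ 5 * D.W x ^ 2) := by ring
    _ ≤ C * D.Z0 ^ 2 * psi D.v x ^ 2 * (min (D.f0 ^ (-2 : ℝ))
        (D.f0 ^ (3 : ℝ) * rh p.I p.x0 p.r0 x ^ (-(3 : ℝ) - 2)) *
        (1024 * (rh p.I p.x0 p.r0 x ^ (-(2 * (11 / 10 : ℝ))) * Om p.x0 p.R x))) := by
        gcongr
    _ = _ := by ring

end

end Crest.Agent.N067.M
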