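import Crest.Agent.N067.Z.Th
import Crest.Agent.N067.P.Cmp
import Crest.Agent.N067.P.Pot
import Crest.Agent.N067.M.ChS
import Crest.Agent.N067.M.TLow
import Crest.Agent.N067.T.Dat

/-!
# Row 67, TOP (helper39): the leaf `JStmt`
-/

set_option autoImplicit false
set_option linter.dupNamespace false

open MeasureTheory InnerProductSpace Topology Filter Set Metric
open scoped RealInnerProductSpace Gradient ContDiff ENNReal

namespace Crest.Agent.N067.M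

open Crest.Agent.R077 Crest.Agent.N067.V

noncomputable section

variable {n : ℕ}

theorem ft_ng' {v : EE n → ℝ} (hv : Sol v) (x : EE n) : ft (ng v) x = ft v x := by
  rw [ft, ft, nn_ng hv, dd_ng hv]; simp

/-- the geometry of one side -/
theorem j_geo (n : ℕ) (β : Bo) {T M ε : ℝ} (T0 : 0 ≤ T) (hM : 0 < M) (e0 : 0 < ε) (e1 : ε ≤ 1 / 10) :
    ∃ R0 : ℝ, 1 ≤ R0 ∧ ∀ (v : EE n → ℝ) (ρm : ℝ) (x y : EE n), Sol v → Stable v → |dd v x| ≤ T →
      R0 ≤ rt β v ρm x → 2 * rt β v ρm x < ρm → rt β v ρm x * ph0 v x ≤ 2 →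
      y ∈ ball (ft v x) (1 / 2) → |dd v y| ≤ 1 ∧ ‖x - y‖ ≤ T + 1 ∧ ph0 v y ≤ 1 / M ∧
        (Real.exp (-(ε * rt β v ρm x)) ≤ tt v y ∨ (rt β v ρm y ≤ (1 + ε) * rt β v ρm x ∧
          Real.exp (-(2 * √2 * (1 + ε) * ((1 + ε) * rt β v ρm x))) ≤ tt v y)) := by
  obtain ⟨δ, r0, δ0, h1⟩ := P.cmp_core n β e0 e1
  obtain ⟨M1, m1, h2⟩ := tlow' n ε 1 e0
  obtain ⟨Cp, c1, h3⟩ := fl_ph0 n
  obtain ⟨Ct, c2, h4⟩ := fl_tt n
  have a1 : 0 ≤ (2 * T + 1) / δ := by positivity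
  have a2 : 0 ≤ 2 * (Cp * (T + 2) ^ 2 * (M + M1)) := by positivity
  have a3 : 0 ≤ 4 * (T * Ct + T ^ 2) := by positivity
  have a4 := abs_nonneg r0
  refine ⟨1 + |r0| + (2 * T + 1) / δ + 2 * (Cp * (T + 2) ^ 2 * (M + M1)) + 4 * (T * Ct + T ^ 2),
    by linarith, fun v ρm x y hv hs hd hr hρ hp hy => ?_⟩
  have p0 := ph0_nonneg hv x
  have small : ∀ a b : ℝ, 0 ≤ b → 2 * a ≤ b * rt β v ρm x → 0 ≤ a → a * ph0 v x ≤ b :=
    fun a b hb h ha => le_of_mul_le_mul_left (a := rt β v ρm x)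
      (by nlinarith [mul_le_mul_of_nonneg_left hp ha]) (by linarith)
  have b1 : |dd v (ft v x)| ≤ 1 / 2 := by
    have q1 := h4 v hv hs x x
    rw [sub_self, norm_zero, add_zero, one_pow, one_mul] at q1
    have q2 : dd v x ^ 2 ≤ T ^ 2 := by rw [← sq_abs]; gcongr
    have q3 := hv.tt_nonneg x
    refine (N067.T.abs_dd_ft hv x).trans (le_trans ?_ (small (T * Ct + T ^ 2) (1 / 2) (by norm_num)
      (by linarith) (by positivity)))
    nlinarith [mul_le_mul hd q1 q3 T0, mul_le_mul_of_nonneg_left q2 p0, mul_nonneg p0 (sq_nonneg T)]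
  have b2 : |dd v y| ≤ 1 := by
    have q1 := hv.abs_dd_sub_le y (ft v x)
    have q2 := abs_sub_abs_le_abs_sub (dd v y) (dd v (ft v x))
    linarith [mem_ball_iff_norm.1 hy]
  have b3 : ‖x - y‖ ≤ T + 1 := by linarith [P.norm_sub_ball hv hy]
  have b4 : ph0 v y * (M + M1) ≤ 1 := by
    refine le_trans ?_ (small (Cp * (T + 2) ^ 2 * (M + M1)) 1 zero_le_one (by linarith)
      (by positivity))
    calc _ ≤ Cp * ((T + 2) ^ 2 * ph0 v x) * (M + M1) := by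
          gcongr
          refine (h3 v hv hs x y).trans ?_
          gcongr _ * (?_ ^ 2 * _); linarith
      _ = _ := by ring
  have py := ph0_nonneg hv y
  refine ⟨b2, b3, by rw [le_div_iff₀ hM]; nlinarith, or_iff_not_imp_left.2 fun ht => ?_⟩
  have b5 := h1 v ρm x y hv (ball_subset_ball (by norm_num) hy) (by linarith)
    (by linarith [le_abs_self r0]) (by
      have : (2 * T + 1) / δ ≤ rt β v ρm x := by linarith
      rw [div_le_iff₀' δ0] at this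
      linarith) (not_le.1 ht).le
  refine ⟨b5, le_trans (Real.exp_le_exp.2 ?_) (h2 β v ρm hv hs y
    (by rw [le_div_iff₀ (by linarith)]; nlinarith) b2 (b5.trans_lt (by nlinarith)))⟩
  exact neg_le_neg (mul_le_mul_of_nonneg_left b5 (by positivity))

namespace Ex

variable {D : Dat n} {μ : Mu} {p : Wp n} {K C1 rs ηt C T2 τ : ℝ} {x y : EE n}
  (E : Ex D μ p K C1 rs ηt C T2 τ)
include E

theorem gg_memJ (x : EE n) : 0 ≤ D.gg x ∧ D.gg x ≤ 1 := by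
  rw [Dat.gg]
  split_ifs
  · have z := E.ok.Z_mem E.bas x
    exact ⟨by positivity, mul_le_one₀ (pow_le_one₀ (Real.smoothTransition.nonneg _)
      (Real.smoothTransition.le_one _)) (sq_nonneg _) (pow_le_one₀ z.1.le z.2)⟩
  · exact ⟨zero_le_one, le_rfl⟩
  · exact ⟨le_rfl, zero_le_one⟩

theorem gg_supp (h : D.gg x ≠ 0) : |dd D.v x| ≤ D.Th x + 1 := by
  rw [Dat.gg] at h
  split_ifs at h with h1 h2
  · refine le_of_not_gt fun h3 => h ?_
    rw [Dat.ch, Real.smoothTransition.zero_of_nonpos (by linarith)]; simp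
  · linarith [E.th.lo x, E.th.four]
  · exact absurd rfl h

/-- the gain near the foot of a point with a large gap -/
theorem gain_far {r : ℝ} (r1 : 1 ≤ r) (h1 : |dd D.v y| ≤ 1) (h2 : ph0 D.v y ≤ 1 / (2 * D.M))
    (h : Real.exp (-(1 / 500 * r)) ≤ tt D.v y ∨ (min (D.rp y) (D.rm y) ≤ (1 + 1 / 500) * r ∧
      Real.exp (-(2 * √2 * (1 + 1 / 500) * ((1 + 1 / 500) * r))) ≤ tt D.v y)) :
    D.Z0 ^ 2 / (2 * K ^ 2) * Real.exp (-(2 * la / θ0 * r)) ≤ D.Gain y := by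
  have O := E.ok
  have B := E.bas
  have K1 := O.K1
  have Z0 := O.Z0_pos
  have k2 : 1 ≤ K ^ 2 := one_le_pow₀ K1
  rcases h with h | ⟨h3, h4⟩
  · refine le_trans ?_ (O.gain_Z0 B y)
    calc _ ≤ D.Z0 ^ 2 / (2 * 1) * Real.exp (-(1 / 500 * r)) ^ 3 := by
          rw [← Real.exp_nat_mul]
          gcongr
          norm_num [la, θ0]; linarith
      _ ≤ D.Z0 ^ 2 / (2 * 1) * tt D.v y ^ 3 := by gcongr
      _ = _ := by ring
  · have hy : y ∈ D.Om := E.th.supp y h2 (by linarith [E.th.lo y, E.th.four])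
    have h5 : D.ζ (D.h ((1 + 1 / 500) * r)) ≤ D.Z y := by
      rw [O.Z_eq B hy]
      exact O.zmono (O.h_pos (by positivity)).le (O.U_pos B hy).le ((O.h_anti (lt_min
        (by linarith [B.rp8 hy]) (by linarith [B.rm8 hy])) h3).trans (O.hmin_le_U B hy))
    have h6 : D.Z0 / K * Real.exp (-(la * ((1 + 1 / 500) * r))) ≤ D.Z y := by
      refine le_trans ?_ h5
      rw [div_mul_eq_mul_div, div_le_iff₀' (by linarith)]
      exact E.des.bad1 _ (by linarith)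
    refine le_trans ?_ (O.gain_t B y)
    have s2 : √2 ≤ 14143 / 10000 := Real.sqrt_le_iff.2 ⟨by norm_num, by norm_num⟩
    calc _ ≤ D.Z0 ^ 2 / (1 * K ^ 2) * (Real.exp (-(2 * √2 * (1 + 1 / 500) * ((1 + 1 / 500) * r))) *
          Real.exp (-(la * ((1 + 1 / 500) * r))) ^ 2) := by
          rw [← Real.exp_nat_mul, ← Real.exp_add]
          gcongr
          · norm_num
          · norm_num [la, θ0]; nlinarith
      _ = Real.exp (-(2 * √2 * (1 + 1 / 500) * ((1 + 1 / 500) * r))) *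
          (D.Z0 / K * Real.exp (-(la * ((1 + 1 / 500) * r)))) ^ 2 := by ring
      _ ≤ _ := mul_le_mul h4 (by gcongr) (by positivity) (B.sol.tt_nonneg y)

theorem gg_far {A : ℝ} (hA : ∀ r, 1 ≤ r → D.ζ (2 * D.h r) ≤ A * Real.exp (-(la * r)))
    (hx : x ∈ D.Om) : D.gg x ^ (1 / θ0) ≤
      (A ^ 2) ^ (1 / θ0) * Real.exp (-(2 * la / θ0 * min (D.rp x) (D.rm x))) := by
  have O := E.ok
  have B := E.bas
  have r1 : 1 ≤ min (D.rp x) (D.rm x) := le_min (by linarith [B.rp8 hx]) (by linarith [B.rm8 hx])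
  have h1 : D.Z x ≤ A * Real.exp (-(la * min (D.rp x) (D.rm x))) := by
    rw [O.Z_eq B hx]
    exact (O.zmono (O.U_pos B hx).le ((O.U_pos B hx).le.trans (O.U_le B hx)) (O.U_le B hx)).trans
      (hA _ r1)
  have h2 : D.gg x ≤ A ^ 2 * Real.exp (-(2 * la * min (D.rp x) (D.rm x))) := by
    rw [Dat.gg, if_pos hx]
    refine (mul_le_of_le_one_left (sq_nonneg _) (pow_le_one₀ (Real.smoothTransition.nonneg _)
      (Real.smoothTransition.le_one _))).trans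
      ((pow_le_pow_left₀ (O.Z_mem B x).1.le h1 2).trans_eq ?_)
    rw [mul_pow, ← Real.exp_nat_mul]; congr 2; push_cast; ring
  refine (Real.rpow_le_rpow (E.gg_memJ x).1 h2 (by norm_num [θ0])).trans_eq ?_
  rw [Real.mul_rpow (sq_nonneg _) (Real.exp_pos _).le, ← Real.exp_mul]
  congr 2; ring

end Ex

/-- the partner ball -/
theorem j_pt (n : ℕ) (β : Bo) {K T M Z0 : ℝ} (A : ℝ) (T0 : 0 ≤ T) (hM : 0 < M) (K1 : 1 ≤ K)
    (hZ : 0 < Z0) : ∃ a R : ℝ, 0 < a ∧ 0 ≤ R ∧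
    ∀ (D : Dat n) (μ : Mu) (p : Wp n) (C1 rs ηt C T2 τ : ℝ), D.β = β → D.M = M → D.Z0 = Z0 →
      (∀ r, 1 ≤ r → D.ζ (2 * D.h r) ≤ A * Real.exp (-(la * r))) → Ex D μ p K C1 rs ηt C T2 τ →
      ∀ x, (x ∈ D.Om → 2 * min (D.rp x) (D.rm x) < D.ρm) → |dd D.v x| ≤ T →
        |dd D.v x| ≤ D.Th x + 1 → ∃ y, ∀ y' ∈ ball y (1 / 2), |dd D.v y'| ≤ 1 ∧ ‖x - y'‖ ≤ R ∧
          D.gg x ^ (1 / θ0) ≤ a * D.Gain y' := by
  obtain ⟨R0, r1, hg⟩ := j_geo n β T0 (M := 2 * M) (ε := 1 / 500) (by positivity) (by norm_num)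
    (by norm_num)
  obtain ⟨A0, a0, hz⟩ := zero_near n
  obtain ⟨Cp, c1, h3⟩ := fl_ph0 n
  obtain ⟨C', c2, h4⟩ := tlo n 1
  obtain ⟨c, hc⟩ : ∃ c, c = 1 / (2 * (M + R0)) / (Cp * (2 * T + A0 + 2) ^ 2) := ⟨_, rfl⟩
  have c0 : 0 < c := by rw [hc]; positivity
  obtain ⟨t0, ht⟩ : ∃ t0, t0 = Real.exp (-(C' / c) - C') := ⟨_, rfl⟩
  have t1 : 0 < t0 := ht ▸ Real.exp_pos _
  have q1 : 0 < 2 / (Z0 ^ 2 * t0 ^ 3) := by positivity
  have q2 : 0 ≤ (A ^ 2) ^ (1 / θ0) * (2 * K ^ 2 / Z0 ^ 2) := by positivity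
  refine ⟨2 / (Z0 ^ 2 * t0 ^ 3) + (A ^ 2) ^ (1 / θ0) * (2 * K ^ 2 / Z0 ^ 2), 2 * T + A0 + 1,
    by positivity, by positivity, fun D μ p C1 rs ηt C T2 τ e1 e2 e3 hA E x hx hd hd' => ?_⟩
  subst e1 e2 e3
  have O := E.ok
  have B := E.bas
  have G0 : ∀ y, 0 ≤ D.Gain y := fun y =>
    (mul_nonneg (sq_nonneg _) (sq_nonneg _)).trans (O.gain_lw B y)
  by_cases h : x ∈ D.Om ∧ R0 ≤ min (D.rp x) (D.rm x)
  · obtain ⟨hO, hr⟩ := h
    have b1 : min (D.rp x) (D.rm x) * ph0 D.v x ≤ 2 := by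
      have := B.min_le hO
      rwa [mul_one_div, le_div_iff₀ (B.ph x)] at this
    refine ⟨ft D.v x, fun y hy => ?_⟩
    have b2 : |dd D.v y| ≤ 1 ∧ ‖x - y‖ ≤ T + 1 ∧ D.Z0 ^ 2 / (2 * K ^ 2) *
        Real.exp (-(2 * la / θ0 * min (D.rp x) (D.rm x))) ≤ D.Gain y := by
      have hx := hx hO
      rcases min_choice (D.rp x) (D.rm x) with e | e <;> rw [e] at hr hx b1 ⊢
      · obtain ⟨s1, s2, s3, s4⟩ := hg D.v D.ρm x y B.sol B.pos.stab hd hr hx b1 hy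
        exact ⟨s1, s2, E.gain_far (r1.trans hr) s1 s3
          (s4.imp_right fun h => ⟨(min_le_left _ _).trans h.1, h.2⟩)⟩
      · obtain ⟨s1, s2, s3, s4⟩ := hg (ng D.v) D.ρm x y (sol_ng B.sol) (stable_ng B.pos.stab)
          (by rwa [dd_ng B.sol, abs_neg]) hr hx (by rwa [ph0_ng]) (by rwa [ft_ng' B.sol])
        rw [dd_ng B.sol, abs_neg] at s1
        rw [ph0_ng] at s3
        rw [tt_ng B.sol] at s4
        exact ⟨s1, s2, E.gain_far (r1.trans hr) s1 s3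
          (s4.imp_right fun h => ⟨(min_le_right _ _).trans h.1, h.2⟩)⟩
    refine ⟨b2.1, by linarith [b2.2.1], (E.gg_far hA hO).trans ?_⟩
    calc _ = (A ^ 2) ^ (1 / θ0) * (2 * K ^ 2 / D.Z0 ^ 2) * (D.Z0 ^ 2 / (2 * K ^ 2) *
          Real.exp (-(2 * la / θ0 * min (D.rp x) (D.rm x)))) := by field_simp
      _ ≤ _ := mul_le_mul (le_add_of_nonneg_left q1.le) b2.2.2 (by positivity) (by positivity)
  · have b1 : 1 / (2 * (D.M + R0)) ≤ ph0 D.v x := by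
      by_cases hO : x ∈ D.Om
      · have s1 := not_le.1 fun h' => h ⟨hO, h'⟩
        have s2 := hx hO
        have s3 : 1 / ph0 D.v x / 2 ≤ min (D.rp x) (D.rm x) :=
          (min_le_iff.1 (B.le_min hO)).resolve_left fun h' => by
            have : 8 ≤ min (D.rp x) (D.rm x) := le_min (B.rp8 hO) (B.rm8 hO)
            linarith
        rw [one_div_le (by positivity) (B.ph x)]
        linarith
      · exact (one_div_le_one_div_of_le (by positivity) (by linarith)).trans (E.ph_gt hd' hO).le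
    obtain ⟨y0, s1, s2⟩ := hz D.v B.sol x
    refine ⟨y0, fun y hy => ?_⟩
    have s3 := mem_ball_iff_norm.1 hy
    have s4 : |dd D.v y| ≤ 1 := (N067.T.band_of_zero B.sol s1).trans (by linarith)
    have s5 : ‖y - x‖ ≤ 2 * T + A0 + 1 := by
      linarith [norm_sub_le_norm_sub_add_norm_sub y y0 x]
    have s6 : c ≤ ph0 D.v y := by
      rw [hc, div_le_iff₀' (by positivity), mul_assoc]
      refine b1.trans ((h3 D.v B.sol B.pos.stab y x).trans ?_)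
      have := (B.ph y).le
      gcongr _ * (?_ ^ 2 * _); linarith
    have s7 : t0 ≤ tt D.v y := by
      refine ht ▸ le_trans (Real.exp_le_exp.2 ?_) (h4 D.v B.sol y (B.ph y) s4)
      have : C' / ph0 D.v y ≤ C' / c := by gcongr
      linarith
    refine ⟨s4, by rwa [norm_sub_rev], (Real.rpow_le_one (E.gg_memJ x).1 (E.gg_memJ x).2
      (by norm_num [θ0])).trans ?_⟩
    calc (1 : ℝ) = 2 / (D.Z0 ^ 2 * t0 ^ 3) * (D.Z0 ^ 2 * t0 ^ 3 / 2) := by field_simp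
      _ ≤ _ := mul_le_mul (le_add_of_nonneg_right q2) (le_trans (by gcongr) (O.gain_Z0 B y))
          (by positivity) (by positivity)

theorem jS (n : ℕ) : JStmt n := by
  refine fun K T2 β C1 C2 c1 _ => ⟨1, fun M hM => ⟨1, fun f0 hf h ζ => ?_⟩⟩
  by_cases H : (∃ A : ℝ, ∀ r, 1 ≤ r → ζ (2 * h r) ≤ A * Real.exp (-(la * r))) ∧ 1 ≤ K ∧
    0 < ζ (80 / f0)
  swap
  · refine ⟨1, one_pos, fun D μ p rs ηt C τ _ _ _ e1 e2 e3 E => absurd ?_ H⟩
    subst e1 e2 e3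
    exact ⟨E.des.jdec, E.ok.K1, E.ok.Z0_pos⟩
  obtain ⟨⟨A, hA⟩, K1, hZ⟩ := H
  have l0 := Real.log_nonneg hf
  obtain ⟨a, R, a0, R0, hp⟩ := j_pt n β (T := C1 * Real.log f0 + 1) (M := M) A (by positivity)
    (by linarith) K1 hZ
  obtain ⟨A1, a1, hc⟩ := P.charge' n (r0 := 1 / 2) (by norm_num)
  obtain ⟨A0, -, hz⟩ := zero_near n
  refine ⟨A1 * (a * (K * (1 + R) ^ K) ^ 2 * (1 + R) ^ (n + 1)), by positivity,
    fun D μ p rs ηt C τ e1 _ e2 e3 e4 e5 E => ?_⟩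
  subst e3 e4 e5
  have O := E.ok
  have B := E.bas
  have G0 : ∀ y, 0 ≤ D.Gain y := fun y =>
    (mul_nonneg (sq_nonneg _) (sq_nonneg _)).trans (O.gain_lw B y)
  refine hc _ _ _ _ _ (by positivity) (T.meas_band B.sol 1)
    ((O.meas_Gain B).mul (O.Wcd.continuous.measurable.pow_const 2)) fun x hx => ?_
  by_cases h0 : D.gg x = 0
  · obtain ⟨y0, s1, -⟩ := hz D.v B.sol x
    refine ⟨y0, fun y hy => ⟨(T.band_of_zero B.sol s1).trans
      (by linarith [mem_ball_iff_norm.1 hy]), ?_⟩⟩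
    have := G0 y
    rw [h0, Real.zero_rpow (by norm_num [θ0]), zero_mul, zero_mul, zero_mul]
    positivity
  have h1 := E.gg_supp h0
  obtain ⟨y0, hy⟩ := hp D μ p C1 rs ηt C T2 τ e1 e2 rfl hA E x hx (by linarith [O.Thi x]) h1
  refine ⟨y0, fun y h2 => ⟨(hy y h2).1, ?_⟩⟩
  obtain ⟨-, s1, s2⟩ := hy y h2
  have := G0 y
  have w0 := O.Wpos x
  have w1 := O.Wpos y
  have s3 : D.W x ≤ K * (1 + R) ^ K * D.W y := (O.Wcmp x y).trans (by gcongr)
  calc _ ≤ a * D.Gain y * 1 * (K * (1 + R) ^ K * D.W y) ^ 2 * (1 + R) ^ (n + 1) := by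
        gcongr; exact W.psi_sq_le B.sol x
    _ = _ := by ring

end

end Crest.Agent.N067.M
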