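import Crest.Agent.N067.Z.I
import Crest.Agent.N067.Z.Flip

/-!
# Row 67, TOP (helper47): the leaf MAIN (pointwise inequality, integrated)
-/

set_option autoImplicit false
set_option linter.dupNamespace false
set_option linter.unusedSectionVars false

open MeasureTheory Laplacian InnerProductSpace Topology Filter Set Metric
open scoped RealInnerProductSpace Gradient ContDiff ENNReal

namespace Crest.Agent.N067.M

open Crest.Agent.R077 Crest.Agent.N067.V Crest.Agent.N067.Y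

noncomputable section

variable {n : ℕ} {D : Dat n} {μ : Mu} {p : Wp n} {K C1 rs ηt C T2 τ : ℝ} {x : EE n}

namespace Mn

/-- lower integral of the positive part -/
def LI (f : EE n → ℝ) : ℝ≥0∞ := ∫⁻ x, ENNReal.ofReal (f x)

variable {f g h : EE n → ℝ}

theorem add_ge (hf : ∀ x, 0 ≤ f x) (hg : ∀ x, 0 ≤ g x) : LI f + LI g ≤ LI fun x => f x + g x :=
  (le_lintegral_add _ _).trans (lintegral_mono fun x => (ENNReal.ofReal_add (hf x) (hg x)).ge)

theorem add_le (hg : AEMeasurable g) : (LI fun x => f x + g x) ≤ LI f + LI g :=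
  (lintegral_mono fun _ => ENNReal.ofReal_add_le).trans
    (lintegral_add_right' _ hg.ennreal_ofReal).le

theorem mul_eq {c : ℝ} (hc : 0 ≤ c) (f : EE n → ℝ) :
    (LI fun x => c * f x) = ENNReal.ofReal c * LI f := by
  simp only [LI, ENNReal.ofReal_mul hc]
  exact lintegral_const_mul' _ _ ENNReal.ofReal_ne_top

theorem ind_eq {S : Set (EE n)} (hS : MeasurableSet S) (f : EE n → ℝ) :
    ∫⁻ x in S, ENNReal.ofReal (f x) = LI (S.indicator f) := by
  rw [LI, ← lintegral_indicator hS]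
  refine lintegral_congr fun x => ?_
  by_cases hx : x ∈ S <;> simp [hx]

theorem key (hh : Integrable h) (h0 : ∫ x, h x ≤ 0) (hg : ∀ᵐ x, f x ≤ h x + g x)
    (f0 : ∀ x, 0 ≤ f x) : LI f ≤ LI g := by
  have a1 : LI h ≠ ⊤ := hh.lintegral_lt_top.ne
  have a2 : LI (fun x => -h x) ≠ ⊤ := hh.neg.lintegral_lt_top.ne
  have a3 : LI h ≤ LI fun x => -h x := by
    rw [integral_eq_lintegral_pos_part_sub_lintegral_neg_part hh, sub_nonpos] at h0
    exact (ENNReal.toReal_le_toReal a1 a2).1 h0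
  have a4 : LI f + LI (fun x => -h x) ≤ LI g + LI h := by
    rw [LI, LI, LI, LI, ← lintegral_add_right' (g := fun x => ENNReal.ofReal (-h x)) _
      hh.1.aemeasurable.neg.ennreal_ofReal,
      ← lintegral_add_right' _ hh.1.aemeasurable.ennreal_ofReal]
    refine lintegral_mono_ae (hg.mono fun x hx => ?_)
    rcases le_total 0 (h x) with h1 | h1
    · rw [ENNReal.ofReal_of_nonpos (neg_nonpos.2 h1), add_zero]
      exact (ENNReal.ofReal_le_ofReal (by linarith)).trans ENNReal.ofReal_add_le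
    · rw [ENNReal.ofReal_of_nonpos h1, add_zero, ← ENNReal.ofReal_add (f0 x) (neg_nonneg.2 h1)]
      exact ENNReal.ofReal_le_ofReal (by linarith)
  exact (ENNReal.add_le_add_iff_right a2).1 (a4.trans (add_le_add_right a3 _))

theorem meas_sign : Measurable fun y : ℝ => (SignType.sign y : ℝ) := by
  have e : (fun y : ℝ => (SignType.sign y : ℝ)) =
      fun y => if 0 < y then 1 else if y < 0 then -1 else 0 := funext fun y => by
    rw [sign_apply]; split_ifs <;> simp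
  rw [e]
  exact Measurable.ite measurableSet_Ioi measurable_const
    (Measurable.ite measurableSet_Iio measurable_const measurable_const)

theorem potD_eq (D : Dat n) (ηt C : ℝ) (x : EE n) :
    W.potD D ep ηt C x = D.tk ηt x + C * tt D.v x ^ 2 := by
  rw [W.potD, Dat.tk]

theorem flx_flip (hv : Sol D.v) (x a : EE n) :
    (SignType.sign (dd D.flip.v x) : ℝ) * ⟪nn D.flip.v x, a⟫ =
      SignType.sign (dd D.v x) * ⟪nn D.v x, a⟫ := by
  rw [flip_v, nn_ng hv, dd_ng hv, Left.sign_neg, inner_neg_left]; simp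

end Mn

open Mn

namespace Ex

variable (E : Ex D μ p K C1 rs ηt C T2 τ)
include E

theorem lw_eq (x : EE n) : D.lw x = (rh p.I p.x0 p.r0 x)⁻¹ := by rw [E.hl]

theorem P_nonneg (x : EE n) : 0 ≤ D.ch x ^ 2 * D.dens x := by rw [Dat.dens]; positivity

theorem P_le (x : EE n) : D.ch x ^ 2 * D.dens x ≤ D.W x ^ 2 := by
  have h1 : D.ch x ^ 2 ≤ 1 := by
    rw [← sq_abs]; exact pow_le_one₀ (abs_nonneg _) (W.abs_cut _)
  have h2 := E.ok.Z_mem E.bas x
  have h3 : D.Z x ^ 2 ≤ 1 := pow_le_one₀ h2.1.le h2.2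
  have h4 := W.psi_sq_le E.bas.sol x
  calc _ ≤ 1 * (1 * 1 * D.W x ^ 2) := by rw [Dat.dens]; gcongr
    _ = _ := by ring

/-- `th |∇ rp| ≤ 2 M / U` -/
theorem th_grad (hx : x ∈ D.Om) : ‖W.thD D x • ∇ D.rp x‖ ≤ 2 * D.M / D.U x := by
  have R := E.br
  have p0 := R.rp_pos hx
  have t0 := R.th'.nonneg x
  have h1 := (E.des.one _ (inv_pos.2 p0)).1
  rw [R.H1_inv p0] at h1
  have h2 := R.th'.le x hx
  have h3 : ‖∇ D.rp x‖ ≤ D.M * D.rp x ^ 2 := E.bas.p.grad x hx
  have M0 : 0 ≤ D.M := by linarith [E.hM]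
  have U0 := R.U_pos hx
  rw [norm_smul, Real.norm_of_nonneg t0, le_div_iff₀ U0]
  calc _ = W.thD D x * D.U x * ‖∇ D.rp x‖ := by ring
    _ ≤ 2 * |D.hd (D.rp x)| * (D.M * D.rp x ^ 2) := by
        gcongr ?_ * ?_
        exact h2.trans (by gcongr; linarith [R.k1])
    _ = 2 * D.M * (D.rp x ^ 2 * |D.hd (D.rp x)|) := by ring
    _ ≤ _ := mul_le_of_le_one_right (by positivity) h1

/-- the pointwise inequality at valid points -/
theorem pt_Om (Ce : ℝ) (hx : x ∈ D.Om)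
    (hg : D.XX x = -(W.thD D x • ∇ D.rp x + W.thD D.flip x • ∇ D.rm x)) :
    D.ch x ^ 2 * D.dens x * ((1 + ep) * ‖μ.s (D.U x) • D.XX x + D.VV x‖ ^ 2) +
      1 / 40000 * (D.ch x ^ 2 * D.dens x * (μ.b (D.U x) * ‖D.XX x‖ ^ 2)) +
      1 / 200 * (if D.U x ≤ μ.U3 then D.ch x ^ 2 * D.dens x * D.lw x ^ 2 else 0) +
      6 / 5 * (et * k0 / 4) * (D.ch x ^ 2 * D.dens x * (D.th μ x * ‖∇ D.rp x‖ ^ 2 / D.rp x) +
        D.ch x ^ 2 * D.dens x * (D.flip.th μ x * ‖∇ D.rm x‖ ^ 2 / D.rm x)) ≤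
    (D.h1 μ ηt C x + 11 / 10 * D.h2 μ p Ce x) +
      (D.ch x ^ 2 * D.dens x * (μ.b (D.U x) *
        (W.thD D x * D.rp x * D.tk ηt x + W.thD D.flip x * D.rm x * D.flip.tk ηt x)) +
      (420 * Ce ^ 2 + 2 * C) * (D.ch x ^ 2 * D.dens x * (D.th μ x * D.rp x * tt D.v x ^ 2) +
        D.ch x ^ 2 * D.dens x * (D.flip.th μ x * D.rm x * tt D.v x ^ 2)) +
      6 / 5 * (D.dens x * (2 * D.ch x * D.chd x * D.th μ x *
          (-(SignType.sign (dd D.v x) * ⟪nn D.v x, ∇ D.rp x⟫))) +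
        D.dens x * (2 * D.ch x * D.chd x * D.flip.th μ x *
          (-(SignType.sign (dd D.v x) * ⟪nn D.v x, ∇ D.rm x⟫)))) +
      60000 * D.chd x ^ 2 * (D.dens x * (μ.b (D.U x) * ‖∇ D.Th x‖ ^ 2)) +
      (if μ.U3 ≤ D.U x then 4000000 * D.lw x ^ 2 else 0) * (D.ch x ^ 2 * D.dens x) +
      (if 1 / D.M ^ 2 ≤ D.U x then μ.be else 0) * ‖D.XX x‖ ^ 2 * (D.ch x ^ 2 * D.dens x) +
      20000 * ‖H.V2 p.x0 p.R x‖ ^ 2 * (D.ch x ^ 2 * D.dens x)) := by
  have hv := E.bas.sol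
  have U0 := E.br.U_pos hx
  have u0 := E.U3_pos
  obtain ⟨s0, s1, b0, b1, -⟩ := E.des.bd _ U0
  have d0 : 0 ≤ D.dens x := by rw [Dat.dens]; positivity
  have P0 := E.P_nonneg x
  have ht := (E.ts x hx).trans E.τ1
  have hL : ‖∇ (H.lr p.I p.x0 p.r0) x‖ ≤ D.lw x := E.lw_eq x ▸ H.norm_grad_lr E.r0_pos x
  have htr := H.le_trT (I := p.I) D.v E.card x
  have one := E.one_le hx
  have eF : ⟪nn D.v x, D.XX x⟫ =
      -(W.thD D x * ⟪nn D.v x, ∇ D.rp x⟫ + W.thD D.flip x * ⟪nn D.v x, ∇ D.rm x⟫) := by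
    rw [hg, inner_neg_right, inner_add_right, real_inner_smul_right, real_inner_smul_right]
  have q1 : D.ch x ^ 2 * D.dens x * (μ.b (D.U x) * tt D.v x ^ 2) * 1 ≤
      D.ch x ^ 2 * D.dens x * (μ.b (D.U x) * tt D.v x ^ 2) *
        (W.thD D x * D.rp x + W.thD D.flip x * D.rm x) := by gcongr
  have q2 : 0 ≤ D.ch x ^ 2 * D.dens x * (μ.b (D.U x) * tt D.v x ^ 2) *
      (W.thD D x * D.rp x + W.thD D.flip x * D.rm x) :=
    mul_nonneg (by positivity) (zero_le_one.trans one)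
  have q3 := mul_le_mul_of_nonneg_left q1 (sq_nonneg Ce)
  have q4 := mul_nonneg E.C0 q2
  have q5 : 0 ≤ (if 1 / D.M ^ 2 ≤ D.U x then μ.be else 0) * ‖D.XX x‖ ^ 2 *
      (D.ch x ^ 2 * D.dens x) :=
    mul_nonneg (mul_nonneg (by split_ifs; exacts [E.des.be, le_rfl]) (sq_nonneg _)) P0
  have q6 : 0 ≤ (if μ.U3 ≤ D.U x then 4000000 * D.lw x ^ 2 else 0) * (D.ch x ^ 2 * D.dens x) :=
    mul_nonneg (by split_ifs <;> positivity) P0
  have q7 : 0 ≤ ‖H.V2 p.x0 p.R x‖ ^ 2 * (D.ch x ^ 2 * D.dens x) := by positivity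
  rw [E.h1_eq hx, E.h2_eq hx, W.GD, potD_eq, potD_eq, flip_v, tt_ng hv, E.hk, Dat.th, Dat.th,
    W.flip_U, div_eq_mul_inv (H.trT _ _ _), div_eq_mul_inv (Ce * _), ← inv_pow, ← E.lw_eq,
    E.VV_eq, Dat.gC]
  change _ ≤ D.dens x * W.hh1 _ _ _ _ _ _ _ (_ + _ * ‖D.XX x‖ ^ 2 + _) + _ + _
  rcases le_or_gt (D.U x) μ.U3 with h | h
  · obtain ⟨c1, c2⟩ := Mu.c_low u0 h
    have a := W.alg_low (X := D.XX x) (U := H.V2 p.x0 p.R x) (gT := ∇ D.Th x) (ch := D.ch x)
      (chd := D.chd x) (sg := SignType.sign (dd D.v x)) (CH := Ce) (ε := ep)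
      (P := W.thD D x * D.rp x * (D.tk ηt x + C * tt D.v x ^ 2) +
        W.thD D.flip x * D.rm x * (D.flip.tk ηt x + C * tt D.v x ^ 2))
      (Kp := et * k0 / 4 * (W.thD D x * ‖∇ D.rp x‖ ^ 2 / D.rp x +
        W.thD D.flip x * ‖∇ D.rm x‖ ^ 2 / D.rm x))
      hv ht (by norm_num [ep]) (by norm_num [ep]) (E.des.main _ U0 h)
      (E.des.half _ U0 (by linarith)) b1 hL htr
    rw [← nn, eF] at a
    rw [c1, c2, if_pos h, ← nn]
    linear_combination mul_le_mul_of_nonneg_left a d0 + 350 * q3 + 2 / 3 * q4 + q5 + q6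
  · obtain ⟨s2, ha⟩ := E.des.top _ h.le
    have hc : μ.c (D.U x) ≤ 12 / 5 * μ.b (D.U x) ∧ |μ.cu (D.U x)| ≤ 24 / 5 * μ.b (D.U x) := by
      rcases le_total (D.U x) (2 * μ.U3) with h1 | h1
      · have := E.des.half _ U0 h1
        exact ⟨by linarith [(μ.c_mem (D.U x)).2], by linarith [Mu.abs_cu u0 (D.U x)]⟩
      · rw [(Mu.c_top u0 h1).1, (Mu.c_top u0 h1).2, abs_zero]
        exact ⟨by positivity, by positivity⟩
    have a := W.alg_top (x := x) (X := D.XX x) (U := H.V2 p.x0 p.R x) (gT := ∇ D.Th x) (ch := D.ch x)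
      (chd := D.chd x) (sg := SignType.sign (dd D.v x)) (CH := Ce) (ε := ep)
      (P := W.thD D x * D.rp x * (D.tk ηt x + C * tt D.v x ^ 2) +
        W.thD D.flip x * D.rm x * (D.flip.tk ηt x + C * tt D.v x ^ 2))
      (Kp := et * k0 / 4 * (W.thD D x * ‖∇ D.rp x‖ ^ 2 / D.rp x +
        W.thD D.flip x * ‖∇ D.rm x‖ ^ 2 / D.rm x))
      hv (by norm_num [ep]) (by norm_num [ep]) b0 b1 s0 s1 s2 ha (μ.c_mem _).1 hc.1 hc.2 hL
      (E.lw_eq x ▸ H.norm_V2_le' E.r0_pos E.hr.2.2.1 x) (le_trans (by linarith) htr)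
    rw [← nn, eF] at a
    rw [if_neg h.not_ge, if_pos h.le, ← nn]
    linear_combination mul_le_mul_of_nonneg_left a d0 + 350 * q3 + 2 / 3 * q4 + 20000 * q7

/-- the set of `TOP` -/
def _root_.Crest.Agent.N067.M.Dat.TS (D : Dat n) (U1 T2 : ℝ) : Set (EE n) :=
  {x | (x ∈ D.In ∧ U1 ≤ D.U x) ∨ (x ∉ D.Om ∧ |dd D.v x| < T2)}

set_option maxHeartbeats 1000000 in
/-- the pointwise inequality -/
theorem pt {Ce A Cm : ℝ} (hA : ∀ y, |deriv Real.smoothTransition y| ≤ A)
    (hC : 4000000 + 420 * Ce ^ 2 + 60000 * A ^ 2 ≤ Cm) : ∀ᵐ x,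
    (1 + ep) * {x | |dd D.v x| < T2}.indicator (fun x => psi D.v x ^ 2 * gsq D.zz x) x +
      1 / 40000 * D.In.indicator
        (fun x => D.ch x ^ 2 * D.dens x * (μ.b (D.U x) * ‖D.XX x‖ ^ 2)) x +
      1 / 200 * {x | x ∈ D.In ∧ D.U x ≤ μ.U3}.indicator
        (fun x => D.ch x ^ 2 * D.dens x * D.lw x ^ 2) x +
      6 / 5 * (et * k0 / 4) * (D.In.indicator
          (fun x => D.ch x ^ 2 * D.dens x * (D.th μ x * ‖∇ D.rp x‖ ^ 2 / D.rp x)) x +
        D.In.indicator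
          (fun x => D.ch x ^ 2 * D.dens x * (D.flip.th μ x * ‖∇ D.rm x‖ ^ 2 / D.rm x)) x) ≤
    (D.h1 μ ηt C x + 11 / 10 * D.h2 μ p Ce x) +
      (D.In.indicator (fun x => D.ch x ^ 2 * D.dens x * (μ.b (D.U x) *
        (W.thD D x * D.rp x * D.tk ηt x + W.thD D.flip x * D.rm x * D.flip.tk ηt x))) x +
      (Cm + 2 * C) * (D.In.indicator
          (fun x => D.ch x ^ 2 * D.dens x * (D.th μ x * D.rp x * tt D.v x ^ 2)) x +
        D.In.indicator
          (fun x => D.ch x ^ 2 * D.dens x * (D.flip.th μ x * D.rm x * tt D.v x ^ 2)) x) +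
      6 / 5 * (D.Cut.indicator (fun x => D.dens x * (2 * D.ch x * D.chd x * D.th μ x *
          (-(SignType.sign (dd D.v x) * ⟪nn D.v x, ∇ D.rp x⟫)))) x +
        D.Cut.indicator (fun x => D.dens x * (2 * D.ch x * D.chd x * D.flip.th μ x *
          (-(SignType.sign (dd D.v x) * ⟪nn D.v x, ∇ D.rm x⟫)))) x) +
      Cm * D.Cut.indicator (fun x => D.dens x * (μ.b (D.U x) * ‖∇ D.Th x‖ ^ 2)) x +
      Cm / rs ^ 2 * (D.TS μ.U3 T2).indicator (fun x => D.W x ^ 2) x +
      μ.be * (Cm * D.M ^ 6) * (D.TS (1 / D.M ^ 2) T2).indicator (fun x => D.W x ^ 2) x +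
      Cm / p.R ^ 2 * (D.gg x * psi D.v x ^ 2 * D.W x ^ 2)) := by
  have hv := E.bas.sol
  have a1 : 0 ≤ 420 * Ce ^ 2 := by positivity
  have a2 : 0 ≤ 60000 * A ^ 2 := by positivity
  have C0 : 0 ≤ Cm := by linarith
  have rs1 := E.hr.1
  have R0 : 0 < p.R := E.r0_pos.trans_le E.hr.2.2.1
  have M0 : 0 < D.M := by linarith [E.hM]
  have be0 := E.des.be
  filter_upwards [E.out.grad, zgS n D μ p K C1 rs ηt C T2 τ E] with x hg hz
  have l0 := (E.ok.lwpos x).1
  have l1 : D.lw x ^ 2 ≤ 1 / rs ^ 2 := by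
    rw [← one_div_pow]; exact pow_le_pow_left₀ l0.le (E.ok.lwpos x).2 2
  have t1 : ∀ U1, 0 ≤ (D.TS U1 T2).indicator (fun x => D.W x ^ 2) x := fun U1 =>
    indicator_nonneg (fun _ _ => sq_nonneg _) x
  have t2 : 0 ≤ Cm / rs ^ 2 * (D.TS μ.U3 T2).indicator (fun x => D.W x ^ 2) x :=
    mul_nonneg (by positivity) (t1 _)
  have t3 : 0 ≤ μ.be * (Cm * D.M ^ 6) *
      (D.TS (1 / D.M ^ 2) T2).indicator (fun x => D.W x ^ 2) x := mul_nonneg (by positivity) (t1 _)
  have t4 : 0 ≤ Cm / p.R ^ 2 * (D.gg x * psi D.v x ^ 2 * D.W x ^ 2) := by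
    have : 0 ≤ D.gg x := by rw [Dat.gg]; split_ifs <;> positivity
    positivity
  by_cases hx : x ∈ D.In
  · have P0 := E.P_nonneg x
    have P1 := E.P_le x
    have U0 := E.br.U_pos hx.1
    have b0 := (E.des.bd _ U0).2.2.1
    have d0 : 0 ≤ D.dens x := by rw [Dat.dens]; positivity
    have q := E.pt_Om Ce hx.1 (hg hx.1)
    have e1 : (1 + ep) * {x | |dd D.v x| < T2}.indicator (fun x => psi D.v x ^ 2 * gsq D.zz x) x ≤
        D.ch x ^ 2 * D.dens x * ((1 + ep) * ‖μ.s (D.U x) • D.XX x + D.VV x‖ ^ 2) := by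
      by_cases h : |dd D.v x| < T2
      · rw [indicator_of_mem (show x ∈ {x | |dd D.v x| < T2} from h), gsq_eq, (hz h).1 hx.1,
          norm_smul, mul_pow, Real.norm_eq_abs, sq_abs, Dat.ch_one (h.le.trans (E.th.lo x)),
          Dat.dens, Dat.zz]
        exact le_of_eq (by ring)
      · rw [indicator_of_notMem (show x ∉ {x | |dd D.v x| < T2} from h), mul_zero]
        have : 0 ≤ 1 + ep := by norm_num [ep]
        positivity
    have e2 : {x | x ∈ D.In ∧ D.U x ≤ μ.U3}.indicator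
        (fun x => D.ch x ^ 2 * D.dens x * D.lw x ^ 2) x =
        if D.U x ≤ μ.U3 then D.ch x ^ 2 * D.dens x * D.lw x ^ 2 else 0 := by
      split_ifs with h
      · exact indicator_of_mem (show x ∈ {x | x ∈ D.In ∧ D.U x ≤ μ.U3} from ⟨hx, h⟩) _
      · exact indicator_of_notMem (fun h1 => h h1.2) _
    have cz : x ∉ D.Cut → D.chd x = 0 := fun h => Dat.chd_zero (not_le.1 fun h1 => h ⟨hx, h1⟩)
    have e3 : ∀ (t : EE n → ℝ) (a : EE n → EE n), D.Cut.indicator (fun x => D.dens x *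
        (2 * D.ch x * D.chd x * t x * (-(SignType.sign (dd D.v x) * ⟪nn D.v x, a x⟫)))) x =
        D.dens x * (2 * D.ch x * D.chd x * t x *
          (-(SignType.sign (dd D.v x) * ⟪nn D.v x, a x⟫))) := fun t a => by
      by_cases h : x ∈ D.Cut
      · exact indicator_of_mem h _
      · rw [indicator_of_notMem h, cz h]; ring
    have e4 : 60000 * D.chd x ^ 2 * (D.dens x * (μ.b (D.U x) * ‖∇ D.Th x‖ ^ 2)) ≤
        Cm * D.Cut.indicator (fun x => D.dens x * (μ.b (D.U x) * ‖∇ D.Th x‖ ^ 2)) x := by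
      by_cases h : x ∈ D.Cut
      · have : D.chd x ^ 2 ≤ A ^ 2 := by
          rw [← sq_abs]; exact pow_le_pow_left₀ (abs_nonneg _) (hA _) 2
        rw [indicator_of_mem h]
        gcongr ?_ * _
        linarith
      · rw [indicator_of_notMem h, cz h]; simp
    have e5 : (if μ.U3 ≤ D.U x then 4000000 * D.lw x ^ 2 else 0) * (D.ch x ^ 2 * D.dens x) ≤
        Cm / rs ^ 2 * (D.TS μ.U3 T2).indicator (fun x => D.W x ^ 2) x := by
      split_ifs with h
      · rw [indicator_of_mem (show x ∈ D.TS μ.U3 T2 from Or.inl ⟨hx, h⟩), ← mul_one_div Cm]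
        gcongr
        linarith
      · rwa [zero_mul]
    have e6 : (if 1 / D.M ^ 2 ≤ D.U x then μ.be else 0) * ‖D.XX x‖ ^ 2 * (D.ch x ^ 2 * D.dens x) ≤
        μ.be * (Cm * D.M ^ 6) * (D.TS (1 / D.M ^ 2) T2).indicator (fun x => D.W x ^ 2) x := by
      split_ifs with h
      · have b1 : 2 * D.M / D.U x ≤ 2 * D.M ^ 3 := by
          rw [div_le_iff₀ U0]; rw [div_le_iff₀ (by positivity)] at h; nlinarith
        have b2 := E.flip.th_grad ((W.flip_Om hv).symm ▸ hx.1)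
        rw [W.flip_U] at b2
        have b3 : ‖D.XX x‖ ≤ 4 * D.M ^ 3 := by
          rw [Dat.XX, hg hx.1, norm_neg]
          exact (norm_add_le_of_le ((E.th_grad hx.1).trans b1) (b2.trans b1)).trans_eq (by ring)
        have b4 : ‖D.XX x‖ ^ 2 ≤ Cm * D.M ^ 6 := (pow_le_pow_left₀ (norm_nonneg _) b3 2).trans (by
          rw [show (4 * D.M ^ 3) ^ 2 = 16 * D.M ^ 6 by ring]; gcongr; linarith)
        rw [indicator_of_mem (show x ∈ D.TS (1 / D.M ^ 2) T2 from Or.inl ⟨hx, h⟩)]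
        gcongr
      · rwa [zero_mul, zero_mul]
    have e7 : 20000 * ‖H.V2 p.x0 p.R x‖ ^ 2 * (D.ch x ^ 2 * D.dens x) ≤
        Cm / p.R ^ 2 * (D.gg x * psi D.v x ^ 2 * D.W x ^ 2) := by
      have b1 := pow_le_pow_left₀ (norm_nonneg _) (H.norm_V2_le (c := p.x0) R0 x) 2
      rw [Dat.gg, if_pos hx.1, show D.ch x ^ 2 * D.Z x ^ 2 * psi D.v x ^ 2 * D.W x ^ 2 =
        D.ch x ^ 2 * D.dens x by rw [Dat.dens]; ring]
      gcongr ?_ * _
      calc _ ≤ 20000 * (5 / p.R) ^ 2 := by gcongr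
        _ = 500000 / p.R ^ 2 := by ring
        _ ≤ _ := by gcongr; linarith
    have e8 : 0 ≤ D.ch x ^ 2 * D.dens x * (D.th μ x * D.rp x * tt D.v x ^ 2) +
        D.ch x ^ 2 * D.dens x * (D.flip.th μ x * D.rm x * tt D.v x ^ 2) := by
      have := E.th1.nonneg x
      have := E.flip.th1.nonneg x
      have := E.br.rp_pos hx.1
      have := E.br.rm_pos hx.1
      positivity
    simp only [indicator_of_mem hx]
    rw [e2, e3, e3]
    linarith [mul_le_mul_of_nonneg_right (show 420 * Ce ^ 2 ≤ Cm by linarith) e8]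
  · have n1 : x ∉ {x | x ∈ D.In ∧ D.U x ≤ μ.U3} := fun h => hx h.1
    have n2 : x ∉ D.Cut := fun h => hx h.1
    simp only [indicator_of_notMem hx, indicator_of_notMem n1, indicator_of_notMem n2]
    by_cases hO : x ∈ D.Om
    · have h1 : D.Th x + 1 < |dd D.v x| := not_le.1 fun h => hx ⟨hO, h⟩
      have n3 : x ∉ {x | |dd D.v x| < T2} := fun h => by
        linarith [E.th.lo x, show |dd D.v x| < T2 from h]
      rw [indicator_of_notMem n3, Dat.h1, Dat.h2, indicator_of_mem hO, indicator_of_mem hO,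
        Dat.ch_zero h1]
      linarith
    · rw [Dat.h1, Dat.h2, indicator_of_notMem hO, indicator_of_notMem hO]
      by_cases h : |dd D.v x| < T2
      · have b1 : ‖∇ D.W x‖ ≤ 22 * D.lw x * D.W x := by
          have := E.W_pos x
          rw [E.lw_eq] at l0 ⊢
          rw [E.hW] at this ⊢
          exact (H.norm_grad_WW (by norm_num) E.r0_pos E.hr.2.2.1 x).trans (by gcongr; norm_num)
        have b2 : (1 + ep) * (psi D.v x ^ 2 * ‖∇ D.W x‖ ^ 2) ≤ Cm / rs ^ 2 * D.W x ^ 2 :=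
          calc _ ≤ 2 * (1 * (22 * D.lw x * D.W x) ^ 2) := by
                gcongr
                · norm_num [ep]
                · exact W.psi_sq_le hv x
            _ = 968 * D.lw x ^ 2 * D.W x ^ 2 := by ring
            _ ≤ Cm * (1 / rs ^ 2) * D.W x ^ 2 := by gcongr; linarith
            _ = _ := by ring
        rw [indicator_of_mem (show x ∈ {x | |dd D.v x| < T2} from h), gsq_eq, (hz h).2 hO,
          indicator_of_mem (show x ∈ D.TS μ.U3 T2 from Or.inr ⟨hO, h⟩)]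
        linarith
      · rw [indicator_of_notMem (show x ∉ {x | |dd D.v x| < T2} from h)]
        linarith

theorem meas_U (P : ℝ → Prop) (hP : MeasurableSet {y | P y}) :
    MeasurableSet {x | x ∈ D.In ∧ P (D.U x)} := by
  classical
  have m : Measurable (D.Om.piecewise D.U fun _ => 1) :=
    (E.ok.U_cont E.bas).measurable_piecewise continuousOn_const E.bas.op.measurableSet
  convert (E.ok.meas_In E.bas).inter (m hP) using 1
  ext x
  exact and_congr_right fun hx => by rw [mem_preimage, piecewise_eq_of_mem _ _ _ hx.1]; rfl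

theorem meas_TS (U1 : ℝ) : MeasurableSet (D.TS U1 T2) :=
  (E.meas_U (fun y => U1 ≤ y) measurableSet_Ici).union (E.bas.op.measurableSet.compl.inter
    (measurableSet_lt E.bas.sol.dd_sm.continuous.abs.measurable measurable_const))

theorem am_ind {S : Set (EE n)} {f : EE n → ℝ} (hS : MeasurableSet S) (h : S ⊆ D.Om)
    (hf : AEMeasurable f (volume.restrict D.Om)) : AEMeasurable (S.indicator f) :=
  (aemeasurable_indicator_iff hS).2 (hf.mono_measure (Measure.restrict_mono h le_rfl))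

theorem meas_ch1 : Measurable D.ch := Real.smoothTransition.continuous.measurable.comp
  (measurable_const.sub (E.bas.sol.dd_sm.continuous.abs.measurable.sub E.ok.Tmeas))

theorem meas_chd1 : Measurable D.chd := (measurable_deriv _).comp
  (measurable_const.sub (E.bas.sol.dd_sm.continuous.abs.measurable.sub E.ok.Tmeas))

theorem meas_gg1 : Measurable D.gg :=
  Measurable.ite E.bas.op.measurableSet
    ((E.meas_ch1.pow_const 2).mul ((E.ok.meas_Z E.bas).pow_const 2)) (Measurable.ite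
      (measurableSet_le E.bas.sol.dd_sm.continuous.abs.measurable measurable_const)
      measurable_const measurable_const)

end Ex

theorem mainS (n : ℕ) : MainStmt n := fun K => by
  obtain ⟨Ce, -, h2⟩ := i2S n
  obtain ⟨A, -, hA⟩ := W.exists_deriv_ST
  have a1 : 0 ≤ 420 * Ce ^ 2 := by positivity
  have a2 : 0 ≤ 60000 * A ^ 2 := by positivity
  refine ⟨4000000 + 420 * Ce ^ 2 + 60000 * A ^ 2, by linarith, fun D μ p C1 rs ηt C T2 τ E => ?_⟩
  have q := E.pt hA (le_refl (4000000 + 420 * Ce ^ 2 + 60000 * A ^ 2))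
  have c0 : 0 ≤ 4000000 + 420 * Ce ^ 2 + 60000 * A ^ 2 := by linarith
  generalize 4000000 + 420 * Ce ^ 2 + 60000 * A ^ 2 = Cm at q c0 ⊢
  obtain ⟨i1, j1⟩ := i1S n D μ p K C1 rs ηt C T2 τ E
  obtain ⟨i2, j2⟩ := h2 D μ p K C1 rs ηt C T2 τ E
  have hv := E.bas.sol
  have mI := E.ok.meas_In E.bas
  have mC := E.ok.meas_Cut E.bas
  have mO := E.bas.op.measurableSet
  have sI : D.In ⊆ D.Om := fun _ h => h.1
  have sC : D.Cut ⊆ D.Om := fun _ h => h.1.1
  have m1 := E.meas_ch1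
  have m2 := E.meas_chd1
  have m3 := E.ok.meas_dens E.bas
  have m4 := E.th1.meas
  have m5 := E.flip.th1.meas
  have m6 : AEMeasurable D.rp (volume.restrict D.Om) := (E.bas.p.cont E.bas.op).aemeasurable mO
  have m7 : AEMeasurable D.rm (volume.restrict D.Om) := (E.bas.m.cont E.bas.op).aemeasurable mO
  have m8 := hv.tt_sm.continuous.measurable
  have m9 : AEMeasurable (fun x => μ.b (D.U x)) (volume.restrict D.Om) :=
    E.des.meas.2.1.comp_aemeasurable ((E.ok.U_cont E.bas).aemeasurable mO)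
  have m10 := E.ok.Wcd.continuous.measurable
  have m11 : Measurable fun x => (SignType.sign (dd D.v x) : ℝ) :=
    meas_sign.comp hv.dd_sm.continuous.measurable
  have mf : ∀ {t : EE n → ℝ} (r : EE n → ℝ), Measurable t → AEMeasurable (D.Cut.indicator
      fun x => D.dens x * (2 * D.ch x * D.chd x * t x *
        (-(SignType.sign (dd D.v x) * ⟪nn D.v x, ∇ r x⟫)))) := fun r ht =>
    ((m3.mul ((((m1.const_mul 2).mul m2).mul ht).mul (m11.mul ((W.measurable_grad _).inner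
      (W.measurable_grad r))).neg)).indicator mC).aemeasurable
  have me : ∀ {t r : EE n → ℝ}, Measurable t → AEMeasurable r (volume.restrict D.Om) →
      AEMeasurable (D.In.indicator fun x => D.ch x ^ 2 * D.dens x * (t x * r x * tt D.v x ^ 2)) :=
    fun ht hr => E.am_ind mI sI (((m1.pow_const 2).mul m3).aemeasurable.mul
      ((ht.aemeasurable.mul hr).mul (m8.pow_const 2).aemeasurable))
  have n1 : ∀ x, 0 ≤ {x | |dd D.v x| < T2}.indicator (fun x => psi D.v x ^ 2 * gsq D.zz x) x :=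
    indicator_nonneg fun x _ => mul_nonneg (sq_nonneg _) (gsq_nonneg _ _)
  have n2 : ∀ x, 0 ≤ D.In.indicator
      (fun x => D.ch x ^ 2 * D.dens x * (μ.b (D.U x) * ‖D.XX x‖ ^ 2)) x :=
    indicator_nonneg fun x hx => mul_nonneg (E.P_nonneg x)
      (mul_nonneg (E.des.bd _ (E.br.U_pos hx.1)).2.2.1 (sq_nonneg _))
  have n3 : ∀ x, 0 ≤ {x | x ∈ D.In ∧ D.U x ≤ μ.U3}.indicator
      (fun x => D.ch x ^ 2 * D.dens x * D.lw x ^ 2) x :=
    indicator_nonneg fun x _ => mul_nonneg (E.P_nonneg x) (sq_nonneg _)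
  have n4 : ∀ x, 0 ≤ D.In.indicator
      (fun x => D.ch x ^ 2 * D.dens x * (D.th μ x * ‖∇ D.rp x‖ ^ 2 / D.rp x)) x :=
    indicator_nonneg fun x hx => mul_nonneg (E.P_nonneg x)
      (div_nonneg (mul_nonneg (E.th1.nonneg x) (sq_nonneg _)) (E.br.rp_pos hx.1).le)
  have n5 : ∀ x, 0 ≤ D.In.indicator
      (fun x => D.ch x ^ 2 * D.dens x * (D.flip.th μ x * ‖∇ D.rm x‖ ^ 2 / D.rm x)) x :=
    indicator_nonneg fun x hx => mul_nonneg (E.P_nonneg x)
      (div_nonneg (mul_nonneg (E.flip.th1.nonneg x) (sq_nonneg _)) (E.br.rm_pos hx.1).le)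
  have k1 : (0 : ℝ) ≤ 1 + ep := by norm_num [ep]
  have k2 : (0 : ℝ) ≤ 6 / 5 * (et * k0 / 4) := by norm_num [et, k0]
  have k3 : 0 ≤ Cm + 2 * C := by linarith [E.C0]
  have k4 : 0 ≤ μ.be * (Cm * D.M ^ 6) := mul_nonneg E.des.be (by positivity)
  have s1 := fun x => mul_nonneg k1 (n1 x)
  have s2 := fun x => mul_nonneg (show (0 : ℝ) ≤ 1 / 40000 by norm_num) (n2 x)
  have s3 := fun x => mul_nonneg (show (0 : ℝ) ≤ 1 / 200 by norm_num) (n3 x)
  have s4 := fun x => mul_nonneg k2 (add_nonneg (n4 x) (n5 x))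
  have key := Mn.key (i1.add (i2.const_mul (11 / 10))) (by
    rw [integral_add' i1 (i2.const_mul _), integral_const_mul]; linarith) q
    fun x => add_nonneg (add_nonneg (add_nonneg (s1 x) (s2 x)) (s3 x)) (s4 x)
  simp only [Dat.COST, Dat.GB, Dat.GH, Dat.Kept, Dat.POT, Dat.ERR, Dat.FLX, Dat.GT, Dat.TOP, Dat.RR,
    flip_In hv, flip_Cut hv, flip_ch hv, flip_chd hv, flip_dens hv, flx_flip hv, flip_rp]
  rw [flip_v]
  simp only [tt_ng hv]
  rw [ind_eq (measurableSet_lt hv.dd_sm.continuous.abs.measurable measurable_const),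
    ind_eq (E.meas_U (fun y => y ≤ μ.U3) measurableSet_Iic)]
  simp only [ind_eq mI, ind_eq mC]
  rw [ind_eq (S := {x | _ ∨ _}) (E.meas_TS μ.U3), ind_eq (S := {x | _ ∨ _}) (E.meas_TS (1 / D.M ^ 2))]
  refine le_trans ?_ (key.trans ?_)
  · refine le_trans ?_ (add_ge (fun x => add_nonneg (add_nonneg (s1 x) (s2 x)) (s3 x)) s4)
    refine add_le_add (le_trans ?_ (add_ge (fun x => add_nonneg (s1 x) (s2 x)) s3)) ?_
    · refine add_le_add (le_trans ?_ (add_ge s1 s2)) (mul_eq (by norm_num) _).ge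
      exact add_le_add (mul_eq k1 _).ge (mul_eq (by norm_num) _).ge
    · rw [mul_eq k2]
      exact mul_le_mul_right (add_ge n4 n5) _
  · refine (add_le (((E.meas_gg1.mul (hv.psi_sm.continuous.measurable.pow_const 2)).mul
      (m10.pow_const 2)).const_mul _).aemeasurable).trans
        (add_le_add ?_ (mul_eq (by positivity) _).le)
    refine (add_le (((m10.pow_const 2).indicator (E.meas_TS _)).const_mul _).aemeasurable).trans
      (add_le_add ?_ (mul_eq k4 _).le)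
    refine (add_le (((m10.pow_const 2).indicator (E.meas_TS _)).const_mul _).aemeasurable).trans
      (add_le_add ?_ (mul_eq (by positivity) _).le)
    refine (add_le ((E.am_ind mC sC (m3.aemeasurable.mul (m9.mul
      ((W.measurable_grad _).norm.pow_const 2).aemeasurable))).const_mul _)).trans
      (add_le_add ?_ (mul_eq c0 _).le)
    refine (add_le (((mf _ m4).add (mf _ m5)).const_mul _)).trans (add_le_add ?_ ?_)
    · refine (add_le (((me m4 m6).add (me m5 m7)).const_mul _)).trans (add_le_add le_rfl ?_)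
      rw [mul_eq k3]
      exact mul_le_mul_right (add_le (me m5 m7)) _
    · rw [mul_eq (by norm_num)]
      exact mul_le_mul_right (add_le (mf _ m5)) _

end

end Crest.Agent.N067.M
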