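import Crest.Agent.N067.Z.Defs
import Crest.Agent.N067.H.Th2
import Crest.Agent.N067.T.Mid

/-!
# Row 67, TOP (helper39): the leaves `ThStmt`, `TestStmt`, `LowGStmt`
-/

set_option autoImplicit false
set_option linter.dupNamespace false

open MeasureTheory InnerProductSpace Topology Filter Set Metric
open scoped RealInnerProductSpace Gradient ContDiff ENNReal

namespace Crest.Agent.N067.M

open Crest.Agent.R077 Crest.Agent.N067.V

noncomputable section

variable {n : ℕ}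

theorem la_le : la ≤ 3 := by norm_num [la]

theorem thS (n : ℕ) : ThStmt n := by
  obtain ⟨Cf, Ct, -, T, h⟩ := exists_nm (φ0 n) le_rfl
  refine fun K T2 h4 => ⟨T2, fun C1 h1 C2 h2 => ?_⟩
  obtain ⟨M0, -, h⟩ := h C1 C2 (by linarith) h2
  refine ⟨M0, fun M hM => ⟨80 * M ^ 2, fun D rs e1 e2 hf O B => ?_⟩⟩
  subst e2
  have N := h (D.triv C1) B.pos e1 hM hf
  have B' := B.triv C1
  refine ⟨O.cut_ok B' N T, O.cut_cd B' N T, h4, fun x => le_trans ?_ (O.cut_ge B' N T x),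
    fun x a b => (O.Supp_sub B' N T (show x ∈ _ from ⟨b, a⟩)).1,
    _, fun x hx => O.grad_Th_bd B' N T hx.1⟩
  have M9 : 11 ≤ D.M := N.M9
  have := one_lt_log (ρ := D.M ^ 2) (by nlinarith)
  change T2 ≤ C1 * Real.log (D.M ^ 2)
  nlinarith

namespace Ex

variable {D : Dat n} {μ : Mu} {p : Wp n} {K C1 rs ηt C T2 τ : ℝ} {x : EE n}
  (E : Ex D μ p K C1 rs ηt C T2 τ)
include E

theorem f160 : 160 * D.M ^ 2 ≤ D.f0 := by
  obtain ⟨a, b, -⟩ := E.des.U3
  have f0 := one_pos.trans_le E.ok.f1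
  have M0 : 0 < D.M := by linarith [E.hM]
  have : 160 / D.f0 ≤ 1 / D.M ^ 2 := by
    rw [show 160 / D.f0 = 2 * (80 / D.f0) by ring]; linarith
  rwa [div_le_div_iff₀ f0 (by positivity), one_mul] at this

theorem f4 : 4 * D.M ≤ D.f0 := by nlinarith [E.f160, E.hM]

/-- above the cut the points which are not valid are far from flat -/
theorem ph_gt (h : |dd D.v x| ≤ D.Th x + 1) (hx : x ∉ D.Om) : 1 / (2 * D.M) < ph0 D.v x :=
  not_le.1 fun h1 => hx (E.th.supp x h1 h)

theorem Z_lip : LocallyLipschitzOn {x | |dd D.v x| ≤ D.Th x + 1} D.Z := by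
  have O := E.ok
  have B := E.bas
  refine ll_glue (a := 1) B.op (g := fun x => D.ζ (D.U x))
    (ll_comp_on (O.U_lip B la_le) E.des.lip.1 fun x hx => O.U_pos B hx) (fun x hx => O.Z_eq B hx)
    fun x hx hn => ?_
  filter_upwards [(continuous_ph0 B.sol).continuousAt.eventually (lt_mem_nhds (E.ph_gt hx hn))]
    with z hz
  exact O.Z_top B E.f4 hz.le

theorem W_dec : ∃ A : ℝ, 0 < A ∧ ∀ x, D.W x ≤ A * ((1 + ‖x‖) ^ 10)⁻¹ := by
  obtain ⟨a, b, c, -⟩ := E.hr
  rw [E.hW]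
  exact H.WW_dec (by norm_num) (by linarith) (by linarith)

theorem ch_one (h : |dd D.v x| ≤ T2) : D.ch x = 1 :=
  Real.smoothTransition.one_of_one_le (by linarith [E.th.lo x])

end Ex

theorem testS (n : ℕ) : TestStmt n := by
  refine fun K => ⟨max K 12, le_max_of_le_right (by norm_num), fun D μ p C1 rs ηt C T2 τ E => ?_⟩
  have O := E.ok
  have B := E.bas
  refine ⟨fun x => mul_pos (O.Z_mem B x).1 (O.Wpos x),
    (O.meas_Z B).mul O.Wcd.continuous.measurable, ll_mul (E.Z_lip.mono fun x hx => ?_)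
      (ll_of_contDiffAt fun _ _ => O.Wcd.contDiffAt), E.W_dec.imp fun _ h x _ =>
      (mul_le_of_le_one_left (O.Wpos x).le (O.Z_mem B x).2).trans (h.2 x), fun x y _ _ => ?_⟩
  · have hx : |dd D.v x| < T2 := hx
    exact show |dd D.v x| ≤ D.Th x + 1 by linarith [E.th.lo x]
  have p0 := B.ph y
  have k1 := le_max_left K 12
  have k2 := le_max_right K 12
  generalize max K 12 = K' at *
  have h1 : 1 ≤ Real.exp (K' / ph0 D.v y) * D.Z y := by
    calc (1 : ℝ) = Real.exp (12 / ph0 D.v y) * Real.exp (-(12 / ph0 D.v y)) := by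
          rw [← Real.exp_add]; simp
      _ ≤ _ := by gcongr; exact O.exp_le_Z B la_le y
  have w0 := O.Wpos y
  have K1 := O.K1
  have l1 : 1 ≤ 1 + ‖x - y‖ := le_add_of_nonneg_right (norm_nonneg _)
  calc _ ≤ D.W x := mul_le_of_le_one_left (O.Wpos x).le (O.Z_mem B x).2
    _ ≤ _ := O.Wcmp x y
    _ ≤ K' * (1 + ‖x - y‖) ^ K' * D.W y := by gcongr
    _ ≤ (Real.exp (K' / ph0 D.v y) * D.Z y) * (K' * (1 + ‖x - y‖) ^ K' * D.W y) :=
        le_mul_of_one_le_left (by positivity) h1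
    _ = _ := by rw [Dat.zz]; ring

theorem lowG (n : ℕ) : LowGStmt n := by
  intro D μ p K C1 rs ηt C T2 τ E κ h1 h2 x hx hF
  have O := E.ok
  have B := E.bas
  have f0 := one_pos.trans_le O.f1
  have k0 : 0 < κ := lt_of_lt_of_le (by positivity) h1
  have hx : |dd D.v x| ≤ 1 := hx
  rw [flat_iff B.sol k0.le, not_le] at hF
  have h3 : 300 ≤ D.f0 * κ := by rwa [div_le_iff₀' f0] at h1
  have h4 : 80 / D.f0 ≤ 3 / 8 * κ := by rw [div_le_iff₀' f0]; linarith
  have h5 := E.des.zmain _ h4 (by linarith)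
  have h6 : D.ζ (3 / 8 * κ) ^ 2 ≤ D.gg x := by
    have z := O.zbd (3 / 8 * κ) (by positivity)
    rw [Dat.gg]
    split_ifs with h
    · rw [E.ch_one (by linarith [E.th.four]), one_pow, one_mul, O.Z_eq B h]
      have h7 := O.U_ge B h (by rw [div_le_iff₀' f0]; nlinarith)
      exact pow_le_pow_left₀ z.1.le (O.zmono (show 0 ≤ 3 / 8 * κ by positivity)
        (O.U_pos B h).le (by linarith)) 2
    · exact pow_le_one₀ z.1.le z.2
  have Z0 := O.Z0_pos
  have h7 : (1 / 8 : ℝ) ≤ psi D.v x := by linarith [T.psi_band B.sol hx]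
  have h8 : (1 / 300 : ℝ) ≤ (3 / 640 : ℝ) ^ (51 / 50 : ℝ) := by
    rw [← Real.rpow_le_rpow_iff (z := 50) (by norm_num) (by positivity) (by norm_num),
      ← Real.rpow_mul (by norm_num)]
    norm_num
  rw [show D.f0 * (3 / 8 * κ) / 80 = 3 / 640 * (D.f0 * κ) by ring,
    Real.mul_rpow (by norm_num) (by positivity)] at h5
  rw [le_div_iff₀ (by positivity), mul_comm 2, Real.rpow_mul (by positivity), Real.rpow_two]
  have q0 : 0 < (D.f0 * κ) ^ (51 / 50 : ℝ) := by positivity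
  change D.Z0 * _ ≤ _ at h5
  generalize (D.f0 * κ) ^ (51 / 50 : ℝ) = q at *
  calc _ ≤ (D.Z0 * (1 / 300 * q)) ^ 2 * (1 / 8) ^ 2 := by nlinarith [sq_nonneg (D.Z0 * q)]
    _ ≤ _ := mul_le_mul ((pow_le_pow_left₀ (by positivity) (le_trans (by gcongr) h5) 2).trans h6)
        (by gcongr) (by positivity) ((sq_nonneg _).trans h6)

end

end Crest.Agent.N067.M
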