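import Crest.Agent.N067.Z.Abs
import Crest.Agent.N067.Z.Flip

/-!
# Row 67, TOP (helper90): the order of the constants, `MIStmt` from the leaves
-/

set_option autoImplicit false
set_option linter.dupNamespace false

open MeasureTheory Laplacian InnerProductSpace Topology Filter Set Metric
open scoped RealInnerProductSpace Gradient ENNReal

namespace Crest.Agent.N067.M

open Crest.Agent.R077 Crest.Agent.N067.V Crest.Agent.N067.Y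

noncomputable section

variable {n : ℕ}

local notation "oR" => ENNReal.ofReal

/-- the data attached to a design, a weight and a cap, before the cut -/
def mkD (v : EE n → ℝ) (β : Bo) (f0 M C2 : ℝ) (h hd ζ : ℝ → ℝ) (p : Wp n) (ρ : ℝ) : Dat n where
  v := v
  β := β
  f0 := f0
  ρm := ρ
  M := M
  C2 := C2
  κ0 := k0
  h := h
  hd := hd
  ζ := ζ
  W := H.WW (11 / 10) p.I p.x0 p.r0 p.R
  lw := fun x => (rh p.I p.x0 p.r0 x)⁻¹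
  Th := fun _ => 0

theorem mkD_ok {v : EE n → ℝ} (hv : PS v) (β : Bo) {f0 M K C1 rs ρ : ℝ} (C2 : ℝ) {h hd ζ : ℝ → ℝ}
    {μ : Mu} (d : Des h hd ζ μ K f0 M) (hK : 30 ≤ K) (f1 : 1 ≤ f0) (c0 : 0 ≤ C1) {p : Wp n}
    (r1 : 1 ≤ rs) (r2 : rs ≤ p.r0) (r3 : p.r0 ≤ p.R) (hρ : f0 ^ 2 ≤ ρ) :
    ((mkD v β f0 M C2 h hd ζ p ρ).triv C1).Ok K la C1 rs := by
  have r0 : 0 < p.r0 := by linarith
  obtain ⟨t1, t2, t3, t4⟩ := triv_fields (mkD v β f0 M C2 h hd ζ p ρ) hv.toSol c0 f1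
  refine ⟨hv, f1, hρ, by norm_num [mkD, Dat.triv, k0], by norm_num [mkD, Dat.triv, k0], d.hpos,
    d.hlow, d.hhigh, d.zmono, d.zcont, d.zbd, d.ztop, d.z2, d.z1, d.zdec,
    contDiff_infty.1 (H.cd_WW r0) 1, H.WW_pos r0, fun x => ?_, fun x y => ?_, fun x => ?_,
    fun x y => ?_, t1, t2, t3, t4⟩
  · refine (H.norm_grad_WW (by norm_num) r0 r3 x).trans ?_
    have h1 := H.rh_pos (I := p.I) (c := p.x0) r0 x
    have h2 := H.WW_pos (γ := 11 / 10) (I := p.I) (c := p.x0) (R := p.R) r0 x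
    change _ ≤ K * (rh p.I p.x0 p.r0 x)⁻¹ * H.WW (11 / 10) p.I p.x0 p.r0 p.R x
    gcongr; linarith
  · refine (H.WW_cmp (by norm_num) (by norm_num) (by linarith) (by linarith) x y).trans ?_
    have h2 := H.WW_pos (γ := 11 / 10) (I := p.I) (c := p.x0) (R := p.R) r0 y
    have h3 : 1 ≤ 1 + ‖x - y‖ := le_add_of_nonneg_right (norm_nonneg _)
    have h4 : (1 + ‖x - y‖) ^ 12 ≤ (1 + ‖x - y‖) ^ K := by
      rw [← Real.rpow_natCast]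
      exact Real.rpow_le_rpow_of_exponent_le h3 (by push_cast; linarith)
    change _ ≤ K * (1 + ‖x - y‖) ^ K * H.WW (11 / 10) p.I p.x0 p.r0 p.R y
    refine mul_le_mul_of_nonneg_right (h4.trans (le_mul_of_one_le_left (by positivity) ?_)) h2.le
    linarith
  · have h1 := H.rh_pos (I := p.I) (c := p.x0) r0 x
    refine ⟨inv_pos.2 h1, ?_⟩
    rw [one_div]
    exact inv_anti₀ (by linarith) (r2.trans (le_rh _ _ x))
  · change 1 / (rh p.I p.x0 p.r0 x)⁻¹ ≤ 1 / (rh p.I p.x0 p.r0 y)⁻¹ + _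
    rw [one_div, one_div, inv_inv, inv_inv]
    exact H.rh_lip r0 x y

theorem cap_gg (D : Dat n) (W lw : EE n → ℝ) (C1 ρ : ℝ) :
    (({ D with W := W, lw := lw } : Dat n).cap C1 ρ).gg = (D.cap C1 ρ).gg := rfl

theorem mkD_gg (v : EE n → ℝ) (β : Bo) (f0 M C2 : ℝ) (h hd ζ : ℝ → ℝ) (p q : Wp n) (C1 ρ : ℝ) :
    ((mkD v β f0 M C2 h hd ζ p 0).cap C1 ρ).gg = ((mkD v β f0 M C2 h hd ζ q 0).cap C1 ρ).gg :=
  cap_gg (mkD v β f0 M C2 h hd ζ q 0) _ _ C1 ρ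

/-- the points where the cap is not felt -/
def Dat.unc (D : Dat n) : Set (EE n) := {x | x ∈ D.Om → 2 * min (D.rp x) (D.rm x) < D.ρm}

theorem cap_unc (D : Dat n) (W lw : EE n → ℝ) (C1 ρ : ℝ) :
    (({ D with W := W, lw := lw } : Dat n).cap C1 ρ).unc = (D.cap C1 ρ).unc := rfl

theorem mkD_unc (v : EE n → ℝ) (β : Bo) (f0 M C2 : ℝ) (h hd ζ : ℝ → ℝ) (p q : Wp n) (C1 ρ : ℝ) :
    ((mkD v β f0 M C2 h hd ζ p 0).cap C1 ρ).unc = ((mkD v β f0 M C2 h hd ζ q 0).cap C1 ρ).unc :=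
  cap_unc (mkD v β f0 M C2 h hd ζ q 0) _ _ C1 ρ

theorem Dat.Bas.meas_unc {D : Dat n} (B : D.Bas) : MeasurableSet D.unc := by
  have c : ContinuousOn (fun x => 2 * min (D.rp x) (D.rm x)) D.Om :=
    continuousOn_const.mul ((B.p.cont B.op).inf (B.m.cont B.op))
  have e : D.unc = D.Omᶜ ∪
      (D.Om ∩ (fun x => 2 * min (D.rp x) (D.rm x)) ⁻¹' Iio D.ρm) := by
    ext x; by_cases hx : x ∈ D.Om <;> simp [hx, Dat.unc]
  rw [e]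
  exact B.op.measurableSet.compl.union (c.isOpen_inter_preimage B.op isOpen_Iio).measurableSet

theorem cF_le : 6 / 5 * ((1 + 10 * ep) * la / (2 * √2)) ≤ 1 - 2 * ep := by
  have h : 7 / 5 ≤ √2 := Real.le_sqrt_of_sq_le (by norm_num)
  have h1 : (1 + 10 * ep) * la / (2 * √2) ≤ (1 + 10 * ep) * la / (2 * (7 / 5)) := by
    gcongr; norm_num [ep, la]
  have h2 : 6 / 5 * ((1 + 10 * ep) * la / (2 * (7 / 5))) ≤ 1 - 2 * ep := by norm_num [ep, la]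
  linarith

theorem exists_small (a b c : ℝ) (ha : 0 ≤ a) (hc : 0 < c) (hb : 0 ≤ b) :
    ∃ e : ℝ, 0 < e ∧ a * e ≤ c ∧ b * e ≤ c := by
  refine ⟨c / (a + b + 1), by positivity, ?_, ?_⟩ <;>
    rw [mul_div_assoc', div_le_iff₀ (by positivity)] <;> nlinarith

/-- the inequality for one set of data -/
theorem step {D : Dat n} {μ : Mu} {p : Wp n} {K C1 rs ηt C T2 τ : ℝ}
    (E : Ex D μ p K C1 rs ηt C T2 τ) {e0 e e' Cm Cp A Am A3 AM T0 τ0 Φ : ℝ} {P1 P2 JJ : ℝ≥0∞}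
    (fi : D.COST T2 ≠ ⊤ ∧ D.GB μ ≠ ⊤ ∧ D.GH μ ≠ ⊤ ∧ D.GG ≠ ⊤ ∧
      D.Kept (D.th μ) ≠ ⊤ ∧ D.flip.Kept (D.flip.th μ) ≠ ⊤ ∧ D.RR ≠ ⊤)
    (main : oR (1 + ep) * D.COST T2 + oR (1 / 40000) * D.GB μ + oR (1 / 200) * D.GH μ +
        oR (6 / 5 * (et * k0 / 4)) * (D.Kept (D.th μ) + D.flip.Kept (D.flip.th μ)) ≤
      D.POT μ ηt + oR (Cm + 2 * C) * (D.ERR (D.th μ) + D.flip.ERR (D.flip.th μ)) +
        oR (6 / 5) * (D.FLX (D.th μ) + D.flip.FLX (D.flip.th μ)) +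
        oR Cm * D.GT μ + oR (Cm / rs ^ 2) * D.TOP μ.U3 T2 +
        oR (μ.be * (Cm * D.M ^ 6)) * D.TOP (1 / D.M ^ 2) T2 + oR (Cm / p.R ^ 2) * D.RR)
    (stab : oR (1 - ep) * (∫⁻ x in {x | |dd D.v x| ≤ T0 ∧ tt D.v x ≤ τ0}, oR
        (psi D.v x ^ 2 * hsq (dd D.v) x * D.zz x ^ 2)) +
      oR e0 * (∫⁻ x in {x | |dd D.v x| ≤ 1}, oR (tt D.v x * D.zz x ^ 2)) +
      oR (1 - 2 * ep) * PG D.v D.zz (Opp D.v ep T0 0) ≤ oR (1 + ep) * D.COST T2) (hτ : τ ≤ τ0)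
    (ps : D.POT μ ηt ≤ oR (1 - ep) * (∫⁻ x in {x | |dd D.v x| ≤ T0 ∧ tt D.v x ≤ τ}, oR
        (psi D.v x ^ 2 * hsq (dd D.v) x * D.zz x ^ 2)) + P1 +
      oR Cp * (oR (D.Z0 ^ 2 * D.f0 ^ 3) * P2)) (p1 : P1 ≤ oR e * D.GG)
    (p2 : P2 ≤ oR A * ∫⁻ x in {x | |dd D.v x| ≤ 1}, oR (D.F (tt D.v x) * D.W x ^ 2))
    (ea : ∀ th, D.Th' th → D.ERR th ≤ oR e * (D.Kept th + D.GG))
    (eb : ∀ th, D.flip.Th' th → D.flip.ERR th ≤ oR e * (D.flip.Kept th + D.flip.GG))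
    (fa : ∀ th, D.Th' th → D.FLX th ≤ oR e * (D.Kept th + D.GG) +
      oR ((1 + 10 * ep) * la / (2 * √2)) * PG D.v (fun x => D.Z x * D.W x)
        fun x y => Opp D.v ep T0 0 x y ∧ 0 < ⟪y - x, nn D.v x⟫)
    (fb : ∀ th, D.flip.Th' th → D.flip.FLX th ≤ oR e * (D.flip.Kept th + D.flip.GG) +
      oR ((1 + 10 * ep) * la / (2 * √2)) * PG D.flip.v (fun x => D.flip.Z x * D.flip.W x)
        fun x y => Opp D.flip.v ep T0 0 x y ∧ 0 < ⟪y - x, nn D.flip.v x⟫)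
    (gt : D.GT μ ≤ oR e * D.GB μ) (h3 : D.TOP μ.U3 T2 ≤ oR A3 * D.G1)
    (hM : D.TOP (1 / D.M ^ 2) T2 ≤ oR AM * D.G1)
    (mid : D.G2 ≤ oR e' * D.G1 + oR (Am * D.Z0 ^ 2) * SRC D.v D.f0 p) (Φ0 : 0 < Φ)
    (hJ : JJ ≤ oR Φ * D.GG)
    (c : 0 < e0 ∧ 0 ≤ e ∧ 1 ≤ Cm ∧ 0 ≤ Cp ∧ 0 ≤ Am ∧ 0 ≤ e' ∧ 0 ≤ A3 ∧ 0 ≤ AM)
    (n2 : (Cm + 2 * C + 6 / 5) * e ≤ 6 / 5 * (et * k0 / 4)) (n3 : Cm * e ≤ 1 / 40000)
    (n4 : Cm * (1 / rs ^ 2) * A3 ≤ e0 / 8) (n5 : μ.be * (Cm * D.M ^ 6) * AM ≤ e0 / 8)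
    (n6 : 1 / rs ^ 2 * A3 ≤ 1)
    (n7 : (1 + 2 * (Cm + 2 * C + 6 / 5)) * e ≤ min (e0 / 8) (1 / 25600))
    (n8 : (Cp * max A 0 + 1) * e' ≤ min (e0 / 4) 1) :
    (∫⁻ x, oR (D.gg x * psi D.v x ^ 2 * D.W x ^ 2 * D.lw x ^ 2)) + oR Φ⁻¹ * JJ ≤
      oR ((16 / e0 + 26001) * ((Cp * max A 0 + 1) * Am + Cm)) *
        (oR (1 / p.R ^ 2) * D.RR + oR (D.Z0 ^ 2) * SRC D.v D.f0 p) := by
  obtain ⟨c1, c2, c3, c4, c5, c6, c7, c8⟩ := c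
  have hs := E.bas.sol
  have C0 := E.C0
  have c0 : 0 ≤ Cm := zero_le_one.trans c3
  have ep0 : 0 < ep := by norm_num [ep]
  have la0 : 0 < la := by norm_num [la]
  rw [div_eq_mul_one_div Cm, div_eq_mul_one_div Cm] at main
  have eG : (∫⁻ x in {x | |dd D.v x| ≤ 1}, oR (tt D.v x * D.zz x ^ 2)) = D.G1 :=
    lintegral_congr fun x => by rw [Dat.zz, mul_pow, ← mul_assoc]
  rw [eG] at stab
  have d1 := fb _ E.th'.2
  have d2 := eb _ E.th'.2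
  rw [flip_GG hs] at d1 d2
  have sub : {x | |dd D.v x| ≤ T0 ∧ tt D.v x ≤ τ} ⊆ {x | |dd D.v x| ≤ T0 ∧ tt D.v x ≤ τ0} :=
    fun x hx => ⟨hx.1, hx.2.trans hτ⟩
  have q2 : oR (D.Z0 ^ 2 * D.f0 ^ 3) * P2 ≤ oR (max A 0) * D.G2 := by
    rw [Dat.G2, mul_left_comm]
    exact mul_le_mul_right (p2.trans (mul_le_mul_left
      (ENNReal.ofReal_le_ofReal (le_max_left _ _)) _)) _
  have fin := absorb fi E.G1_le E.G2_le main stab (ps.trans (add_le_add_left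
      (add_le_add_left (mul_le_mul_right (lintegral_mono_set sub) _) _) _)) p1 q2
    (ea _ E.th'.1) d2 (fa _ E.th'.1) d1 (D.PG_split hs ep T0) gt h3 hM mid E.GG_le E.out_le
    ⟨c1, c2, c3, by positivity, c4, le_max_right _ _, c5, by positivity,
      mul_nonneg E.des.be (by positivity), by positivity, pow_pos E.ok.Z0_pos 2,
      by positivity, c6⟩
    ⟨ep0.le, by norm_num [ep], c7, c8, by norm_num [et, k0]⟩ cF_le n2 n3 n4 n5 n6 n7 n8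
  refine le_trans (add_le_add le_rfl ?_) fin
  calc _ ≤ oR Φ⁻¹ * (oR Φ * D.GG) := mul_le_mul_right hJ _
    _ = _ := by rw [← mul_assoc, ← ENNReal.ofReal_mul (by positivity), inv_mul_cancel₀ Φ0.ne',
      ENNReal.ofReal_one, one_mul]

/-- the master inequality in one dimension `n` -/
theorem mi_n (hn7 : 7 ≤ n) (n9 : n ≤ 9) (fl : FLStmt n) (x0 : X0Stmt n) (x1 : X1Stmt n)
    (st : StabStmt n) (fx : FluxStmt n) (er : ErrStmt n) (po : PotStmt n) (ds : DesStmt)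
    (th : ThStmt n) (te : TestStmt n) (mn : MainStmt n) (fi : FinStmt n) (ps : PSplitStmt n)
    (lo : LowGStmt n) (gt : GTStmt n) (co : CoreStmt n) (mid : MidStmt n) (js : JStmt n)
    (cv : ConvStmt n) (lm : LimGStmt n) {v : EE n → ℝ} (hv : PS v) :
    ∃ C0 κ1 c C rs fs : ℝ, 0 < C0 ∧ 0 < κ1 ∧ 0 < c ∧ 0 < C ∧ 1 ≤ rs ∧ 1 ≤ fs ∧ ∀ f0, fs ≤ f0 →
      ∃ G J : EE n → ℝ, MIData v (11 / 10) (51 / 50) 3 θ0 2 C0 κ1 c C rs f0 G J := by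
  have ep0 : 0 < ep := by norm_num [ep]
  have ep1 : ep ≤ 1 / 100 := by norm_num [ep]
  have la0 : 0 < la := by norm_num [la]
  have la3 : la ≤ 3 := by norm_num [la]
  have kq0 : 0 < 6 / 5 * (et * k0 / 4) := by norm_num [et, k0]
  obtain ⟨K, K30, ds⟩ := ds
  obtain ⟨e0, e00, st⟩ := st ep ep0 ep1
  obtain ⟨TF, eF, eF0, fx⟩ := fx ep ep0 ep1
  obtain ⟨e1, e10, mid⟩ := mid K
  obtain ⟨β, ηt, C, hβ, η0, -, C1', xat, -⟩ := x1 ep ep0 _ (lt_min eF0 e10)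
  have C0 : 0 ≤ C := zero_le_one.trans C1'
  obtain ⟨Cm, Cm1, mn⟩ := mn K
  have Cm0 : 0 ≤ Cm := zero_le_one.trans Cm1
  obtain ⟨K', K1', te⟩ := te K
  obtain ⟨η', Cp, η0', Cp0, ps⟩ := ps K ηt η0
  obtain ⟨p1, A, p2⟩ := po β η' K la k0 η0' la0 la3
  obtain ⟨e, e_0, n23, n7⟩ := exists_small (Cm + 2 * C + 6 / 5) (1 + 2 * (Cm + 2 * C + 6 / 5))
    (min (min (6 / 5 * (et * k0 / 4)) (1 / 40000)) (min (e0 / 8) (1 / 25600)))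
    (by positivity) (by positivity) (by positivity)
  obtain ⟨e', e0', n8, -⟩ := exists_small (Cp * max A 0 + 1) 0 (min (e0 / 4) 1)
    (by positivity) (by positivity) le_rfl
  obtain ⟨T1, p1⟩ := p1 e e_0
  obtain ⟨T0, T2, τ0, hT1, hT4, hT2, τ00, st⟩ := st K' (max TF T1) K1'
  obtain ⟨Am, Am0, mid⟩ := mid β (hβ.trans (min_le_right _ _)) e' e0'
  obtain ⟨Cs1, hB⟩ := ((((((fx β ηt C K la k0 T0 e (hβ.trans (min_le_left _ _)) η0 xat la0 la3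
    ((le_max_left _ _).trans hT1) e_0).and (er β ep ηt C K la k0 e η0 xat la0 la3 e_0)).and
    p1).and p2).and mid).and (big_bas fl x0 K la k0 β)).and (W.big_sup xat K la k0)
  obtain ⟨Cs2, th⟩ := th K T2 (hT4.trans hT2)
  obtain ⟨Cs3, gt⟩ := gt K e e_0
  obtain ⟨C1, c1, c2, c3, c4⟩ : ∃ C1 : ℝ, Cs1 ≤ C1 ∧ Cs2 ≤ C1 ∧ Cs3 ≤ C1 ∧ 1 ≤ C1 :=
    ⟨max (max Cs1 Cs2) (max Cs3 1), by simp, by simp, by simp, by simp⟩
  obtain ⟨M1, hB⟩ := hB C1 c1 (3 * C1)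
  obtain ⟨M2, th⟩ := th C1 c2 _ le_rfl
  obtain ⟨M3, gt⟩ := gt C1 c3 _ le_rfl
  obtain ⟨M4, js⟩ := js K T2 β C1 _ c4 le_rfl
  obtain ⟨Cf, Cf1, cmp⟩ := fl.cmp
  have τ0' : 0 < min τ0 (1 / 10000) := by positivity
  obtain ⟨M, m1, m2, m3, m4, m5, m6⟩ : ∃ M : ℝ, M1 ≤ M ∧ M2 ≤ M ∧ M3 ≤ M ∧ M4 ≤ M ∧ 5000 ≤ M ∧
      Cf / min τ0 (1 / 10000) ≤ M :=
    ⟨max (max (max M1 M2) (max M3 M4)) (max 5000 (Cf / min τ0 (1 / 10000))),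
      by simp, by simp, by simp, by simp, by simp, by simp⟩
  have M0 : 0 < M := by linarith only [m5]
  have c0 : 0 ≤ C1 := zero_le_one.trans c4
  have Cf0 : 0 ≤ Cf := zero_le_one.trans Cf1
  obtain ⟨f1, rs1, r11, hB⟩ := hB M m1
  obtain ⟨f2, th⟩ := th M m2
  obtain ⟨f3, gt⟩ := gt M m3
  obtain ⟨f4, js⟩ := js M m4
  obtain ⟨AM, f5, AM0, cM⟩ := co K (3 * C1) M (1 / M ^ 2) T2 (by positivity)
  obtain ⟨be, be0, n5, -⟩ := exists_small (Cm * M ^ 6 * AM) 0 (e0 / 8) (by positivity)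
    (by positivity) le_rfl
  obtain ⟨U3, f6, U30, ds⟩ := ds M be m5 be0
  obtain ⟨A3, f7, A30, c3⟩ := co K (3 * C1) M U3 T2 U30
  obtain ⟨r2, r20, n4, n6⟩ := exists_small (Cm * A3) (A3 * (e0 / 8)) (e0 / 8) (by positivity)
    (by positivity) (by positivity)
  obtain ⟨rs, s1, s2⟩ : ∃ rs : ℝ, rs1 ≤ rs ∧ 1 / r2 ≤ rs := ⟨max rs1 (1 / r2), by simp, by simp⟩
  have s0 : 1 ≤ rs := r11.trans s1
  have r10 : 0 < rs1 := one_pos.trans_le r11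
  have s3 : 1 / rs ^ 2 ≤ r2 := by
    rw [one_div_le (by positivity) r20]; nlinarith only [s0, s2]
  have n3 : Cm * e ≤ 1 / 40000 :=
    le_trans (mul_le_mul_of_nonneg_right (by linarith only [C0]) e_0.le)
      (n23.trans ((min_le_left _ _).trans (min_le_right _ _)))
  have n4' : Cm * (1 / rs ^ 2) * A3 ≤ e0 / 8 := by
    linarith only [n4, mul_le_mul_of_nonneg_left s3 (mul_nonneg Cm0 A30)]
  have n6' : 1 / rs ^ 2 * A3 ≤ 1 := by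
    have : A3 * r2 ≤ 1 :=
      le_of_mul_le_mul_right (by linarith only [n6]) (by positivity : 0 < e0 / 8)
    linarith only [this, mul_le_mul_of_nonneg_left s3 A30]
  obtain ⟨fs, g1, g2, g3, g4, g5, g6, g7, g8⟩ : ∃ fs : ℝ, f1 ≤ fs ∧ f2 ≤ fs ∧ f3 ≤ fs ∧ f4 ≤ fs ∧
      f5 ≤ fs ∧ f6 ≤ fs ∧ f7 ≤ fs ∧ 1 ≤ fs :=
    ⟨max (max (max f1 f2) (max f3 f4)) (max (max f5 f6) (max f7 1)),
      by simp, by simp, by simp, by simp, by simp, by simp, by simp, by simp⟩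
  have Co0 : 0 ≤ (16 / e0 + 26001) * ((Cp * max A 0 + 1) * Am + Cm) := by positivity
  refine ⟨300, U3, 1 / 10 ^ 7, 2 ^ 20 * ((16 / e0 + 26001) * ((Cp * max A 0 + 1) * Am + Cm)) + 1,
    rs, fs, by norm_num, U30, by norm_num, by positivity, s0, g8, fun f0 hf => ?_⟩
  obtain ⟨h, hd, ζ, μ, eU, eb, des⟩ := ds f0 (g6.trans hf)
  obtain ⟨Φ, Φ0, js⟩ := js f0 (g4.trans hf) h ζ
  have f1' : 1 ≤ f0 := g8.trans hf
  have key : ∀ (p : Wp n) (m : ℕ), 7 ≤ p.I.card → rs ≤ p.r0 → p.r0 ≤ p.R → f0 ≤ p.R →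
      Ex ((mkD v β f0 M (3 * C1) h hd ζ p 0).cap C1 (f0 ^ 2 + m)) μ p K C1 rs ηt C T2
        (min τ0 (1 / 10000)) := fun p m a1 a2 a3 a4 => by
    have o := mkD_ok (ρ := f0 ^ 2 + m) hv β (3 * C1) des K30 f1' c0 s0 a2 a3
      (le_add_of_nonneg_right (Nat.cast_nonneg m))
    have B := (hB ((mkD v β f0 M (3 * C1) h hd ζ p (f0 ^ 2 + m)).triv C1) rfl rfl rfl rfl
      (g1.trans hf) (o.mono_rs r10 s1)).1.2
    have B' : (mkD v β f0 M (3 * C1) h hd ζ p (f0 ^ 2 + m)).Bas := ⟨B.pos, B.ph, B.M1, B.p, B.m⟩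
    obtain ⟨o', t⟩ := th (mkD v β f0 M (3 * C1) h hd ζ p (f0 ^ 2 + m)) rs rfl rfl (g2.trans hf) o B'
    have S := (hB ((mkD v β f0 M (3 * C1) h hd ζ p (f0 ^ 2 + m)).cut (φ0 n) C1) rfl rfl rfl rfl
      (g1.trans hf) (o'.mono_rs r10 s1)).2
    refine ⟨n9, o', B'.cut _ _, rfl, m5, des, t, S.1, S.2, C0, η0, fun x hx => ?_,
      min_le_right _ _, a1, ⟨s0, a2, a3, a4⟩, rfl, rfl⟩
    refine (cmp v hv x x).2.1.trans ((mul_le_mul_of_nonneg_left hx.1.le Cf0).trans ?_)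
    change Cf * (1 / M) ≤ _
    rw [mul_one_div, div_le_iff₀' M0, ← div_le_iff₀ τ0']
    exact m6
  have E0 := fun m => key ⟨Finset.univ, 0, max rs f0, max rs f0⟩ m
    (hn7.trans_eq (Finset.card_fin n).symm) (le_max_left _ _) le_rfl (le_max_right _ _)
  refine lm n9 v 300 U3 (1 / 10 ^ 7) _ rs f0 (ζ (80 / f0)) Φ _ _
    hv.toSol Co0 s0 f1' (E0 0).ok.Z0_pos Φ0 (fun m => (E0 m).meas_gg)
    (fun m => (E0 m).bas.meas_unc) (fun m => (E0 m).gg_mem')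
    (cv _ K C1 rs (f0 ^ 2) c0 fun m => ⟨(E0 m).ok, (E0 m).bas⟩)
    (fun m κ a1 a2 => lo _ μ _ K C1 rs ηt C T2 _ (E0 m) κ a1 (eU ▸ a2)) fun p m a1 a2 a3 a4 => ?_
  have E := key p m a1 a2 a3 a4
  have b := hB _ (by rfl) (by rfl) (by rfl) (by rfl) (g1.trans hf) (E.ok.mono_rs r10 s1)
  have d := hB _ (by rfl) (by rfl) (by rfl) (by rfl) (g1.trans hf) (E.ok.flip.mono_rs r10 s1)
  have mJ := js _ μ p rs ηt C _ (by rfl) (by rfl) (by rfl) (by rfl) (by rfl) (by rfl) E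
  have h3 := c3 _ μ p C1 rs ηt C _ (by rfl) (by rfl) (g7.trans hf) E
  have hM := cM _ μ p C1 rs ηt C _ (by rfl) (by rfl) (g5.trans hf) E
  have hG := gt _ μ p rs ηt C T2 _ (by rfl) (by rfl) (g3.trans hf) E rfl
  rw [← eU] at h3
  rw [mkD_gg _ _ _ _ _ _ _ _ _ p, mkD_unc _ _ _ _ _ _ _ _ _ p]
  exact step E (fi _ μ p K C1 rs ηt C T2 _ E) (mn _ μ p C1 rs ηt C T2 _ E)
    (st v _ hv (te _ μ p C1 rs ηt C T2 _ E)) (min_le_left _ _)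
    (ps _ μ p C1 rs C T2 _ T0 T1 E ((le_max_right _ _).trans hT1)) b.1.1.1.1.2 b.1.1.1.2
    b.1.1.1.1.1.2 d.1.1.1.1.1.2 b.1.1.1.1.1.1 d.1.1.1.1.1.1 hG h3 hM
    (b.1.1.2 μ p C1 rs ηt C T2 _ E) Φ0 mJ ⟨e00, e_0.le, Cm1, Cp0, Am0, e0'.le, A30, AM0⟩
    (n23.trans ((min_le_left _ _).trans (min_le_left _ _))) n3 n4'
    (by rw [eb]; change be * (Cm * M ^ 6) * AM ≤ _; linarith only [n5]) n6'
    (n7.trans (min_le_right _ _)) n8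

theorem expo : Expo (11 / 10) (51 / 50) 3 θ0 2 := by
  constructor <;> norm_num [θ0]

/-- `MIStmt` from the leaves in dimensions seven and eight -/
theorem mi_of (ds : DesStmt) (h : ∀ n, n = 7 ∨ n = 8 → FLStmt n ∧ X0Stmt n ∧ X1Stmt n ∧
    StabStmt n ∧ FluxStmt n ∧ ErrStmt n ∧ PotStmt n ∧ ThStmt n ∧ TestStmt n ∧ MainStmt n ∧
    FinStmt n ∧ PSplitStmt n ∧ LowGStmt n ∧ GTStmt n ∧ CoreStmt n ∧ MidStmt n ∧ JStmt n ∧
    ConvStmt n ∧ LimGStmt n) : MIStmt := by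
  refine ⟨11 / 10, 51 / 50, 3, θ0, 2, expo, fun n v hn hv hs hp => ?_⟩
  obtain ⟨a1, a2, a3, a4, a5, a6, a7, a8, a9, a10, a11, a12, a13, a14, a15, a16, a17, a18, a19⟩ :=
    h n hn
  exact mi_n (by omega) (by omega) a1 a2 a3 a4 a5 a6 a7 ds a8 a9 a10 a11 a12 a13 a14 a15 a16 a17
    a18 a19 ⟨⟨hv, fun x => (hv.tt_nonneg x).lt_of_ne' fun h0 => hp (oneD n v hv x h0)⟩, hs⟩

end

end Crest.Agent.N067.M
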