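import Crest.Agent.N067.Z.Defs
import Crest.Agent.N067.P.Pot

/-!
# Row 67, TOP (helper1): the splitting of the potential, `M.psplit : PSplitStmt n`
-/

set_option autoImplicit false
set_option linter.dupNamespace false

open MeasureTheory Laplacian InnerProductSpace Topology Filter Set Metric
open scoped RealInnerProductSpace Gradient ContDiff ENNReal

namespace Crest.Agent.N067.M

open Crest.Agent.R077 Crest.Agent.N067.V Crest.Agent.N067.Y Crest.Agent.N067.P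

noncomputable section

variable {n : ℕ} {v th : EE n → ℝ} {x : EE n} {D : Dat n} {μ : Mu} {p : Wp n}
  {K lam C1 rs ηt C T2 τ : ℝ}

namespace PSp

theorem hsq_ng (hv : Sol v) (x : EE n) : hsq (dd (ng v)) x = hsq (dd v) x := by
  have : ∀ j, pdv j (fun y => -dd v y) = fun y => -pdv j (dd v) y := fun j =>
    funext fun y => pdv_neg _ _ _
  simp only [hsq, hs, dd_ng hv, this, pdv_neg, neg_sq]

theorem ft_ng (hv : Sol v) (x : EE n) : ft (ng v) x = ft v x := by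
  simp only [ft, nn_ng hv, dd_ng hv, smul_neg, neg_smul, neg_neg]

theorem ok_flip (O : D.Ok K lam C1 rs) : D.flip.Ok K lam C1 rs := by
  have hv : Sol D.v := O.pos.toPos.toSol
  have e : D.flip.In = D.In := by
    ext x
    change x ∈ D.flip.Om ∧ |dd (ng D.v) x| ≤ D.Th x + 1 ↔ x ∈ D.Om ∧ _
    rw [W.flip_Om hv, dd_ng hv, abs_neg]
  exact { O with
    pos := ps_ng O.pos
    Tlo := fun x hx => by
      change _ * Real.log (min (1 / ph0 (ng D.v) x) D.f0) ≤ D.Th x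
      rw [ph0_ng]; exact O.Tlo x (e ▸ hx)
    Tlip := fun x hx y => by
      change ‖ft (ng D.v) x - ft (ng D.v) y‖ ≤ 1 →
        |D.Th x - D.Th y| ≤ ‖ft (ng D.v) x - ft (ng D.v) y‖ / ph0 (ng D.v) x
      rw [ph0_ng, ft_ng hv, ft_ng hv]; exact O.Tlip x (e ▸ hx) y }

theorem br (E : Ex D μ p K C1 rs ηt C T2 τ) :
    W.Br D (HH D.h) (HH1 D.hd) μ.H2 μ.kap ep ηt C et where
  bas := E.bas
  k0 := E.ok.k0
  k1 := by rw [E.hk]; norm_num [k0]
  sp := E.sp
  sm := E.sm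
  hH _ _ := rfl
  hH1 _ _ := rfl
  mhd := E.des.mhd
  des := E.des.des
  e0 := by norm_num [ep]
  η1 := by norm_num [et]
  e1 := by rw [E.hk]; norm_num [k0, ep, et]
  mkap := E.des.mkap
  bkap := ⟨2, E.des.bkap⟩
  kato a b ha hb := by rw [E.hk]; exact E.des.kato a ha b hb

theorem tk_mem (D : Dat n) (ηt : ℝ) (x : EE n) :
    0 ≤ D.tk ηt x ∧ D.tk ηt x ≤ (1 + ep) * hsq (dd D.v) x := by
  have : 0 ≤ (1 + ep) * hsq (dd D.v) x := mul_nonneg (by norm_num [ep]) (hsq_nonneg _ _)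
  unfold Dat.tk
  split_ifs
  exacts [⟨le_rfl, this⟩, ⟨this, le_rfl⟩]

/-- an active thick side sees the thick set -/
theorem thick (O : D.Ok K la C1 rs) (B : D.Bas) (T : D.Th' th) (hk : D.κ0 = k0)
    (hx : x ∈ D.Om) (h : th x * D.rp x * D.tk ηt x ≠ 0) :
    ηt / (2 * (3 + 72 * |K| / k0)) * ph0 D.v x ≤ Bn D.v x := by
  have h1 := O.act_ph B (by norm_num [la]) hx (T.act x hx fun e => h (by simp [e]))
  have h2 : ηt < D.rp x * Bn D.v x := by
    by_contra h2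
    exact h (by rw [Dat.tk, if_pos (not_lt.1 h2), mul_zero])
  have K1 := O.K1
  have k : 0 < k0 := by norm_num [k0]
  rw [hk, ← abs_of_nonneg (by linarith : 0 ≤ K)] at h1
  rw [div_mul_eq_mul_div, div_le_iff₀ (by positivity)]
  have b0 : 0 ≤ Bn D.v x := Real.sqrt_nonneg _
  nlinarith [mul_le_mul_of_nonneg_left h1 b0, mul_le_mul_of_nonneg_right h2.le (B.ph x).le]

theorem num {η m y F : ℝ} (hη : 0 < η) (hm : 1 ≤ m) (hy : 0 ≤ y)
    (h : (η / m) ^ 2 * √((η / m) ^ 2 / (1 + (η / m) ^ 2)) * y ≤ F) :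
    y ≤ m ^ 3 * ((1 + η) / η ^ 3 * F) := by
  have m0 : 0 < m := by linarith
  have c0 : 0 < η / m := by positivity
  have c1 : η / m ≤ η := div_le_self hη.le hm
  have h1 : η / m / (1 + η) ≤ √((η / m) ^ 2 / (1 + (η / m) ^ 2)) := by
    refine Real.le_sqrt_of_sq_le ?_
    rw [div_pow (η / m)]
    exact div_le_div_of_nonneg_left (by positivity) (by positivity) (by nlinarith)
  have h2 := (mul_le_mul_of_nonneg_right (mul_le_mul_of_nonneg_left h1 (sq_nonneg (η / m))) hy).trans h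
  calc y = m ^ 3 * ((1 + η) / η ^ 3 * ((η / m) ^ 2 * (η / m / (1 + η)) * y)) := by field_simp
    _ ≤ _ := by gcongr

/-- one side below the scale `80 / f0` -/
theorem low (O : D.Ok K la C1 rs) (B : D.Bas) (T : D.Th' th)
    (des : Des D.h D.hd D.ζ μ K D.f0 D.M) (hη : 0 < ηt) (hx : x ∈ D.Om)
    (hU : D.U x ≤ 80 / D.f0) :
    D.ζ (D.U x) ^ 2 * (th x * D.rp x * D.tk ηt x) ≤
      2 * |K| * (1 + ep) * ((1 + ηt) / ηt ^ 3) * (D.Z0 ^ 2 * D.f0 ^ 3 * D.F (hsq (dd D.v) x)) := by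
  have y0 := hsq_nonneg (dd D.v) x
  have F0 := F_nonneg D y0
  have f0 : 0 < D.f0 := by linarith [O.f1]
  have e0 : 0 < 1 + ep := by norm_num [ep]
  by_cases h2 : D.rp x * Bn D.v x ≤ ηt
  · rw [Dat.tk, if_pos h2, mul_zero, mul_zero]; positivity
  rw [Dat.tk, if_neg h2]
  have r0 : 0 < D.rp x := by linarith [B.rp8 hx]
  have U0 := O.U_pos B hx
  have h0 := O.hp_pos B hx
  have hh := O.hp_le_U B hx
  have K1 := O.K1
  have Z0 := O.Z0_pos
  have z0 := (O.zbd _ U0).1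
  have zle : D.ζ (D.U x) ≤ D.Z0 := O.zmono U0.le (U0.le.trans hU) hU
  have h3 := O.z1 _ (D.h (D.rp x) / D.U x) U0 hU (by positivity) ((div_le_one U0).2 hh)
  rw [div_mul_cancel₀ _ U0.ne'] at h3
  have h4 := des.pot2 _ r0 (hh.trans hU)
  set m := max 1 (D.rp x / D.f0) with hm
  have m1 : 1 ≤ m := le_max_left _ _
  have m0 : 0 < m := by linarith
  have h5 : (ηt / m) ^ 2 ≤ D.f0 ^ 2 * hsq (dd D.v) x := by
    rw [← Bn_sq, ← mul_pow]
    refine pow_le_pow_left₀ (by positivity) ?_ 2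
    rw [div_le_iff₀ m0]
    have b0 : 0 ≤ Bn D.v x := Real.sqrt_nonneg _
    have : D.rp x ≤ m * D.f0 := (div_le_iff₀ f0).1 (le_max_right _ _)
    nlinarith [mul_le_mul_of_nonneg_right this b0]
  have h6 := num hη m1 y0 (le_F D f0.le (by positivity) y0 h5)
  have t0 := T.nonneg x
  have h7 : th x * D.U x ≤ 2 * |D.hd (D.rp x)| :=
    (T.le x hx).trans (mul_le_mul_of_nonneg_right (by linarith [O.k1]) (abs_nonneg _))
  have h8 : D.ζ (D.U x) * (th x * D.rp x) * m ^ 3 ≤ 2 * K * D.Z0 := by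
    refine le_of_mul_le_mul_right ?_ h0
    calc _ = th x * D.U x * D.rp x * (D.h (D.rp x) / D.U x * D.ζ (D.U x)) * m ^ 3 := by
          field_simp
      _ ≤ 2 * |D.hd (D.rp x)| * D.rp x * D.ζ (D.h (D.rp x)) * m ^ 3 := by gcongr
      _ ≤ _ := by rw [Dat.Z0]; linarith
  rw [abs_of_nonneg (by linarith : 0 ≤ K)]
  calc _ = D.ζ (D.U x) * (D.ζ (D.U x) * (th x * D.rp x)) * (1 + ep) * hsq (dd D.v) x := by ring
    _ ≤ D.Z0 * (D.ζ (D.U x) * (th x * D.rp x)) * (1 + ep) *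
        (m ^ 3 * ((1 + ηt) / ηt ^ 3 * (D.f0 ^ 3 * D.F (hsq (dd D.v) x)))) := by gcongr
    _ = D.Z0 * (D.ζ (D.U x) * (th x * D.rp x) * m ^ 3) * (1 + ep) *
        ((1 + ηt) / ηt ^ 3 * (D.f0 ^ 3 * D.F (hsq (dd D.v) x))) := by ring
    _ ≤ D.Z0 * (2 * K * D.Z0) * (1 + ep) *
        ((1 + ηt) / ηt ^ 3 * (D.f0 ^ 3 * D.F (hsq (dd D.v) x))) := by gcongr
    _ = _ := by ring

/-- the potential -/
def Pq (D : Dat n) (μ : Mu) (ηt : ℝ) (x : EE n) : ℝ :=
  μ.b (D.U x) * (W.thD D x * D.rp x * D.tk ηt x + W.thD D.flip x * D.rm x * D.flip.tk ηt x)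

theorem point (E : Ex D μ p K C1 rs ηt C T2 τ) (hx : x ∈ D.Om) :
    (Pq D μ ηt x ≠ 0 → ηt / (2 * (3 + 72 * |K| / k0)) * ph0 D.v x ≤ Bn D.v x) ∧
    (80 / D.f0 ≤ D.U x → Pq D μ ηt x ≤ (1 - ep) * hsq (dd D.v) x) ∧
    (D.U x ≤ 80 / D.f0 → D.Z x ^ 2 * Pq D μ ηt x ≤
      5 * |K| * ((1 + ηt) / ηt ^ 3) * (D.Z0 ^ 2 * D.f0 ^ 3 * D.F (hsq (dd D.v) x))) := by
  have R := br E
  have O := E.ok
  have B := E.bas
  have hv := B.sol
  have hx' : x ∈ D.flip.Om := W.flip_Om hv ▸ hx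
  have y0 := hsq_nonneg (dd D.v) x
  have U0 := O.U_pos B hx
  have f0 : 0 < D.f0 := by linarith [O.f1]
  obtain ⟨-, -, b0, b1, -⟩ := E.des.bd _ U0
  have a0 : 0 ≤ W.thD D x * D.rp x := mul_nonneg (R.th'.nonneg x) (R.rp_pos hx).le
  have a0' : 0 ≤ W.thD D.flip x * D.rm x := mul_nonneg (R.flip.th'.nonneg x) (R.rm_pos hx).le
  have t := tk_mem D ηt x
  have t' := tk_mem D.flip ηt x
  refine ⟨fun h => ?_, fun hU => ?_, fun hU => ?_⟩
  · by_cases h1 : W.thD D x * D.rp x * D.tk ηt x = 0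
    · have := thick (ok_flip O) R.flip.bas R.flip.th' E.hk hx' fun e => h (by
        rw [Pq, h1, show W.thD D.flip x * D.rm x * D.flip.tk ηt x = 0 from e, add_zero, mul_zero])
      change _ * ph0 (ng D.v) x ≤ √(hsq (dd (ng D.v)) x) at this
      rwa [ph0_ng, hsq_ng hv] at this
    · exact thick O B R.th' E.hk hx h1
  · have h1 := R.am_sum_le (c := 5 / (8 * D.f0)) (by positivity) E.des.one hx
    have h2 : 2 * (5 / (8 * D.f0)) / D.U x ≤ 1 / 64 := by
      rw [div_le_iff₀ U0]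
      refine le_trans (le_of_eq ?_) (mul_le_mul_of_nonneg_left hU (by norm_num))
      field_simp; norm_num
    have h3 := E.des.bmain _ hU
    have h4 : D.flip.tk ηt x ≤ (1 + ep) * hsq (dd D.v) x := hsq_ng hv x ▸ t'.2
    have e0 : 0 ≤ (1 + ep) * hsq (dd D.v) x := t.1.trans t.2
    calc _ ≤ 24 / 25 * (W.thD D x * D.rp x * ((1 + ep) * hsq (dd D.v) x) +
          W.thD D.flip x * D.rm x * ((1 + ep) * hsq (dd D.v) x)) := by
          have := t.1; have := t'.1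
          unfold Pq; gcongr; exact t.2
      _ = 24 / 25 * ((W.thD D x * D.rp x + W.thD D.flip x * D.rm x) *
          ((1 + ep) * hsq (dd D.v) x)) := by ring
      _ ≤ 24 / 25 * ((1 + 1 / 64) * ((1 + ep) * hsq (dd D.v) x)) :=
          mul_le_mul_of_nonneg_left (mul_le_mul_of_nonneg_right (by linarith) e0) (by norm_num)
      _ ≤ _ := by unfold ep; linarith
  · have h1 := low O B R.th' E.des E.η0 hx hU
    have h2 := low (ok_flip O) R.flip.bas R.flip.th' E.des E.η0 hx' (W.flip_U D ▸ hU)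
    rw [W.flip_U] at h2
    change D.ζ (D.U x) ^ 2 * (W.thD D.flip x * D.rm x * D.flip.tk ηt x) ≤
      _ * (D.Z0 ^ 2 * D.f0 ^ 3 * D.F (hsq (dd (ng D.v)) x)) at h2
    rw [hsq_ng hv] at h2
    have η0 := E.η0
    have F0 := F_nonneg D y0
    have g0 : 0 ≤ |K| * ((1 + ηt) / ηt ^ 3) * (D.Z0 ^ 2 * D.f0 ^ 3 * D.F (hsq (dd D.v) x)) := by
      positivity
    rw [O.Z_eq B hx]
    calc _ = μ.b (D.U x) * (D.ζ (D.U x) ^ 2 * (W.thD D x * D.rp x * D.tk ηt x) +
          D.ζ (D.U x) ^ 2 * (W.thD D.flip x * D.rm x * D.flip.tk ηt x)) := by unfold Pq; ring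
      _ ≤ 6 / 5 * (2 * (2 * |K| * (1 + ep) * ((1 + ηt) / ηt ^ 3) *
          (D.Z0 ^ 2 * D.f0 ^ 3 * D.F (hsq (dd D.v) x)))) := by
          have := mul_nonneg a0 t.1; have := mul_nonneg a0' t'.1
          exact mul_le_mul b1 (by linarith) (by positivity) (by norm_num)
      _ ≤ _ := by unfold ep; nlinarith

end PSp

open PSp in
theorem psplit (n : ℕ) : PSplitStmt n := by
  intro K ηt hη
  have k : 0 < k0 := by norm_num [k0]
  refine ⟨ηt / (2 * (3 + 72 * |K| / k0)), 5 * |K| * ((1 + ηt) / ηt ^ 3), by positivity,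
    by positivity, fun D μ p C1 rs C T2 τ T0 T1 E hT => ?_⟩
  have O := E.ok
  have B := E.bas
  have m1 := B.sol.psi_sm.continuous.measurable
  have m2 := O.meas_Z B
  have m3 := O.Wcd.continuous.measurable
  have m4 := B.sol.hsq_sm.continuous.measurable
  have f0 : 0 < D.f0 := by linarith [O.f1]
  have e0 : 0 ≤ 1 - ep := by norm_num [ep]
  have e1 : 1 - ep ≤ 1 := by norm_num [ep]
  have ch : ∀ x c, 0 ≤ c → D.ch x ^ 2 * c ≤ c := fun x c hc => mul_le_of_le_one_left hc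
    (pow_le_one₀ (Real.smoothTransition.nonneg _) (Real.smoothTransition.le_one _))
  have d0 : ∀ x, 0 ≤ D.dens x := fun x => by unfold Dat.dens; positivity
  set η' := ηt / (2 * (3 + 72 * |K| / k0))
  set Cp := 5 * |K| * ((1 + ηt) / ηt ^ 3)
  have Cp0 : 0 ≤ Cp := by positivity
  have key : ∀ x c, 0 ≤ c → D.dens x * Pq D μ ηt x ≤ c →
      ENNReal.ofReal (D.ch x ^ 2 * D.dens x * Pq D μ ηt x) ≤ ENNReal.ofReal c := fun x c c0 h =>
    ENNReal.ofReal_le_ofReal (by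
      rw [mul_assoc]
      exact (mul_le_mul_of_nonneg_left h (sq_nonneg _)).trans (ch x c c0))
  have sub : D.In ⊆ ((({x | x ∈ D.In ∧ 80 / D.f0 ≤ D.U x ∧ |dd D.v x| ≤ T0} ∪
      {x | x ∈ D.In ∧ T1 ≤ |dd D.v x| ∧ 80 / D.f0 ≤ D.U x ∧ η' * ph0 D.v x ≤ Bn D.v x}) ∪
      {x | x ∈ D.In ∧ η' * ph0 D.v x ≤ Bn D.v x ∧ D.U x ≤ 80 / D.f0}) ∪
      {x | Pq D μ ηt x = 0}) := fun x hx => by
    by_cases h0 : Pq D μ ηt x = 0
    · exact Or.inr h0
    have h1 := (point E hx.1).1 h0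
    rcases le_total (80 / D.f0) (D.U x) with h2 | h2
    · rcases le_total |dd D.v x| T0 with h3 | h3
      · exact Or.inl (Or.inl (Or.inl ⟨hx, h2, h3⟩))
      · exact Or.inl (Or.inl (Or.inr ⟨hx, hT.trans h3, h2, h1⟩))
    · exact Or.inl (Or.inr ⟨hx, h1, h2⟩)
  change ∫⁻ x in D.In, ENNReal.ofReal (D.ch x ^ 2 * D.dens x * Pq D μ ηt x) ≤ _
  refine (lintegral_mono_set sub).trans ((lintegral_union_le _ _ _).trans ?_)
  rw [← add_zero (_ + _ + ENNReal.ofReal Cp * _)]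
  refine add_le_add ((lintegral_union_le _ _ _).trans (add_le_add
    ((lintegral_union_le _ _ _).trans (add_le_add ?_ ?_)) ?_)) ?_
  · rw [← lintegral_const_mul' _ _ ENNReal.ofReal_ne_top]
    refine le_trans (setLIntegral_mono ?_ ?_) (lintegral_mono_set
      fun x hx => ⟨hx.2.2, E.ts x hx.1.1⟩)
    · unfold Dat.zz; fun_prop
    · rintro x ⟨hx, h1, -⟩
      rw [← ENNReal.ofReal_mul e0]
      have := hsq_nonneg (dd D.v) x
      refine key x _ (by positivity) ((mul_le_mul_of_nonneg_left ((point E hx.1).2.1 h1)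
        (d0 x)).trans_eq ?_)
      unfold Dat.dens Dat.zz; ring
  · refine setLIntegral_mono ((O.meas_dens B).mul m4).ennreal_ofReal ?_
    rintro x ⟨hx, -, h1, -⟩
    have := hsq_nonneg (dd D.v) x
    exact key x _ (mul_nonneg (d0 x) this) (mul_le_mul_of_nonneg_left
      (((point E hx.1).2.1 h1).trans (mul_le_of_le_one_left this e1)) (d0 x))
  · rw [← lintegral_const_mul' _ _ ENNReal.ofReal_ne_top,
      ← lintegral_const_mul' _ _ ENNReal.ofReal_ne_top]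
    refine le_trans (setLIntegral_mono ?_ ?_) (lintegral_mono_set fun x hx => ⟨hx.1, hx.2.1⟩)
    · unfold Dat.F; fun_prop
    · rintro x ⟨hx, -, h1⟩
      rw [← ENNReal.ofReal_mul (by positivity), ← ENNReal.ofReal_mul Cp0]
      have := F_nonneg D (hsq_nonneg (dd D.v) x)
      refine key x _ (by positivity) ?_
      calc _ = psi D.v x ^ 2 * D.W x ^ 2 * (D.Z x ^ 2 * Pq D μ ηt x) := by unfold Dat.dens; ring
        _ ≤ psi D.v x ^ 2 * D.W x ^ 2 *
            (Cp * (D.Z0 ^ 2 * D.f0 ^ 3 * D.F (hsq (dd D.v) x))) :=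
          mul_le_mul_of_nonneg_left ((point E hx.1).2.2 h1) (by positivity)
        _ = _ := by ring
  · refine (setLIntegral_mono (g := fun _ => 0) measurable_const fun x hx => ?_).trans_eq
      lintegral_zero
    rw [show Pq D μ ηt x = 0 from hx, mul_zero, ENNReal.ofReal_zero]

end

end Crest.Agent.N067.M
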