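import Crest.Agent.N067.Z.Top
import Crest.Agent.N067.Z.Main
import Crest.Agent.N067.Z.Fin
import Crest.Agent.N067.Z.Des
import Crest.Agent.N067.Z.Th
import Crest.Agent.N067.Z.J
import Crest.Agent.N067.Z.GT
import Crest.Agent.N067.Z.Conv
import Crest.Agent.N067.Z.PSplit
import Crest.Agent.N067.M.Flux
import Crest.Agent.N067.M.Err
import Crest.Agent.N067.P.Pot
import Crest.Agent.N067.B.Bad
import Crest.Agent.N067.S.All
import Crest.Agent.N067.X0.Main
import Crest.Agent.N067.Y.Top

/-! Row 67 (helper90): `MIStmt` from `X1Stmt` -/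

namespace Crest.Agent.N067.M

theorem mi_of_x1 (h : ∀ n, n = 7 ∨ n = 8 → X1Stmt n) : MIStmt :=
  mi_of desS fun n hn => ⟨fl n, x0 n, h n hn, stab hn, flux (by omega),
    err (fl n) (x0 n), pot (fl n) (x0 n), thS n, testS n, mainS n, finS n, psplit n, lowG n, gtS n,
    coreS n, midS (Y.x5 (by omega) (by omega)) (bad_of (by omega) (x0 n)), jS n, convS n, limG n⟩

end Crest.Agent.N067.M
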