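import Crest.Agent.N067.W.Dat
import Crest.Agent.N067.H.Wt
import Crest.Agent.N067.H.Th2

/-!
# Row 67, TOP (helper90): interfaces of the assembly of `MIStmt`

`X = ∇ log U`, `V = ∇ log W`, multipliers `b(U) Z² W² ch²` (weak inequality) and
`c(U) Z² W² ch²` (Hardy).  The minus side is the plus side of `D.flip`.
-/

set_option autoImplicit false
set_option linter.dupNamespace false

open MeasureTheory Laplacian InnerProductSpace Topology Filter Set Metric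
open scoped RealInnerProductSpace Gradient ContDiff ENNReal

namespace Crest.Agent.N067.M

open Crest.Agent.R077 Crest.Agent.N067.V Crest.Agent.N067.Y

noncomputable section

variable {n : ℕ}

/-! ### the one dimensional design -/

def k0 : ℝ := 1 / 1000
def et : ℝ := 1 / 1000
def ep : ℝ := 1 / 10000000
def la : ℝ := 51 / 25
def θ0 : ℝ := 587 / 1000

/-- functions of `U`: `s = U ζ' / ζ`, `bu = U b'`; `H2` is a function of `y = 1 / r` -/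
structure Mu where
  s : ℝ → ℝ
  b : ℝ → ℝ
  bu : ℝ → ℝ
  kap : ℝ → ℝ
  H2 : ℝ → ℝ
  U3 : ℝ
  be : ℝ

def HH (h : ℝ → ℝ) (y : ℝ) : ℝ := h (1 / y)
def HH1 (hd : ℝ → ℝ) (y : ℝ) : ℝ := -(hd (1 / y) / y ^ 2)

/-- the coefficient of `|X|²` in the weak inequality -/
def Mu.a (μ : Mu) (U : ℝ) : ℝ := μ.bu U + 2 * μ.s U * μ.b U +
  μ.b U * ((1 - et) * μ.kap U / ((1 + ep + k0) * (1 + k0)) - 1)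
/-- the Hardy multiplier and `U c'` -/
def Mu.c (μ : Mu) (U : ℝ) : ℝ := 6 / 5 * max 0 (min 1 (2 - U / μ.U3))
def Mu.cu (μ : Mu) (U : ℝ) : ℝ := if μ.U3 < U ∧ U < 2 * μ.U3 then -(6 / 5 * (U / μ.U3)) else 0

structure Des (h hd ζ : ℝ → ℝ) (μ : Mu) (K f0 M : ℝ) : Prop where
  hpos : ∀ r, 0 < r → 0 < h r ∧ h r ≤ 1 / r ∧ HasDerivAt h (hd r) r ∧ hd r ≤ 0
  hlow : ∀ r, 0 < r → r ≤ f0 → 3 / (8 * r) ≤ h r ∧ |hd r| ≤ 3 / r * h r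
  hhigh : ∀ r, f0 ≤ r → |hd r| ≤ la * h r
  zmono : MonotoneOn ζ (Ici 0)
  zcont : Continuous ζ
  zbd : ∀ U, 0 < U → 0 < ζ U ∧ ζ U ≤ 1
  ztop : ∀ U, 3 / (32 * M) ≤ U → ζ U = 1
  z2 : ∀ U θ, 0 < U → 0 ≤ θ → θ ≤ 1 → θ ^ (11 / 10 : ℝ) * ζ U ≤ ζ (θ * U)
  z1 : ∀ U θ, 0 < U → U ≤ 80 / f0 → 0 ≤ θ → θ ≤ 1 → θ * ζ U ≤ ζ (θ * U)
  zdec : ∀ r, f0 ≤ r → ζ (3 * h r) ≤ K * ζ (80 / f0) * Real.exp (-(r - 3 * f0)) ∧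
    r ^ 4 * ζ (3 * h r) ≤ K * ζ (80 / f0) * f0 ^ 4
  U3 : 80 / f0 ≤ μ.U3 ∧ 2 * μ.U3 ≤ 1 / M ^ 2 ∧ 1 ≤ f0 * μ.U3 ^ 2
  be : 0 ≤ μ.be
  mhd : Measurable hd
  des : W.HDes (HH h) (HH1 hd) μ.H2
  mkap : Measurable μ.kap
  bkap : ∀ U, |μ.kap U| ≤ 2
  kato : ∀ a > 0, ∀ b > 0,
    W.Kato (HH h) (HH1 hd) μ.H2 k0 a b (μ.kap (W.U0 k0 (HH h a) (HH h b)))
  lip : LocallyLipschitzOn (Ioi 0) ζ ∧ LocallyLipschitzOn (Ioi 0) μ.b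
  der : ∃ N : Set ℝ, N.Countable ∧ ∀ U, 0 < U → U ∉ N →
    HasDerivAt ζ (μ.s U * ζ U / U) U ∧ HasDerivAt μ.b (μ.bu U / U) U
  meas : Measurable μ.s ∧ Measurable μ.b ∧ Measurable μ.bu
  bd : ∀ U, 0 < U → 0 ≤ μ.s U ∧ μ.s U ≤ 11 / 10 ∧ 0 ≤ μ.b U ∧ μ.b U ≤ 6 / 5 ∧ |μ.bu U| ≤ 1
  btop : ∀ U, 400 / M ^ 2 ≤ U → μ.b U = 0
  main : ∀ U, 0 < U → U ≤ μ.U3 → H.Adm (μ.a U) (μ.b U) (μ.s U)
  half : ∀ U, 0 < U → U ≤ 2 * μ.U3 → 1 / 2 ≤ μ.b U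
  top : ∀ U, μ.U3 ≤ U → μ.s U ≤ 2 * μ.b U ∧
    (1 + ep) * μ.s U ^ 2 + μ.b U / 100 ≤ μ.a U + if 1 / M ^ 2 ≤ U then μ.be else 0
  bcmp : ∀ U U', 0 < U → 0 < U' → U' ≤ 1 / M ^ 2 → μ.b U ≤ 3 * max 1 (U' / U) * μ.b U'
  one : ∀ y, 0 < y → HH1 hd y ≤ 1 ∧ y - 5 / (8 * f0) ≤ HH h y
  bmain : ∀ U, 80 / f0 ≤ U → μ.b U ≤ 24 / 25
  pot2 : ∀ r, 0 < r → h r ≤ 80 / f0 →
    |hd r| * r * ζ (h r) * max 1 (r / f0) ^ 3 ≤ K * ζ (80 / f0) * h r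
  zmain : ∀ U, 80 / f0 ≤ U → U ≤ μ.U3 → ζ (80 / f0) * (f0 * U / 80) ^ (51 / 50 : ℝ) ≤ ζ U
  bad1 : ∀ r, 1 ≤ r → ζ (80 / f0) * Real.exp (-(la * r)) ≤ K * ζ (h r)
  bad2 : ∀ r, 1 ≤ r → r ≤ f0 → ζ (80 / f0) * (f0 / r) ^ (101 / 100 : ℝ) ≤ K * ζ (h r)
  jdec : ∃ A : ℝ, ∀ r, 1 ≤ r → ζ (2 * h r) ≤ A * Real.exp (-(la * r))

/-- **DES** (helper1, 93) -/
def DesStmt : Prop := ∃ K : ℝ, 30 ≤ K ∧ ∀ M be : ℝ, 5000 ≤ M → 0 < be → ∃ U3 fs : ℝ, 0 < U3 ∧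
  ∀ f0, fs ≤ f0 → ∃ (h hd ζ : ℝ → ℝ) (μ : Mu), μ.U3 = U3 ∧ μ.be = be ∧ Des h hd ζ μ K f0 M

/-! ### the depth of the cut, the weight -/

def φ0 (n : ℕ) : ContDiffBump (0 : EE n) := ⟨1 / 2, 1, by norm_num, by norm_num⟩

/-- the data with the cap `ρ` and its cut -/
def Dat.cap (D : Dat n) (C1 ρ : ℝ) : Dat n := ({ D with ρm := ρ } : Dat n).cut (φ0 n) C1

structure ThOk (D : Dat n) (T2 : ℝ) : Prop where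
  cd : ContDiff ℝ 1 D.Th
  four : 4 ≤ T2
  lo : ∀ x, T2 ≤ D.Th x
  supp : ∀ x, ph0 D.v x ≤ 1 / (2 * D.M) → |dd D.v x| ≤ D.Th x + 1 → x ∈ D.Om
  bd : ∃ A : ℝ, ∀ x ∈ D.In, ‖∇ D.Th x‖ ≤ A

/-- **TH** (helper39) -/
def ThStmt (n : ℕ) : Prop := ∀ K T2 : ℝ, 4 ≤ T2 → ∃ Cs : ℝ, ∀ C1, Cs ≤ C1 → ∀ C2, 3 * C1 ≤ C2 →
  ∃ Ms : ℝ, ∀ M, Ms ≤ M → ∃ fs : ℝ, ∀ (D : Dat n) (rs : ℝ), D.C2 = C2 → D.M = M → fs ≤ D.f0 →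
    (D.triv C1).Ok K la C1 rs → D.Bas →
    (D.cut (φ0 n) C1).Ok K la C1 rs ∧ ThOk (D.cut (φ0 n) C1) T2

structure Wp (n : ℕ) where
  I : Finset (Fin n)
  x0 : EE n
  r0 : ℝ
  R : ℝ

/-- everything the assembly knows about one set of data -/
structure Ex (D : Dat n) (μ : Mu) (p : Wp n) (K C1 rs ηt C T2 τ : ℝ) : Prop where
  n9 : n ≤ 9
  ok : D.Ok K la C1 rs
  bas : D.Bas
  hk : D.κ0 = k0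
  hM : 5000 ≤ D.M
  des : Des D.h D.hd D.ζ μ K D.f0 D.M
  th : ThOk D T2
  sp : W.SupD D ep ηt C
  sm : W.SupD D.flip ep ηt C
  C0 : 0 ≤ C
  η0 : 0 < ηt
  ts : ∀ x ∈ D.Om, tt D.v x ≤ τ
  τ1 : τ ≤ 1 / 10000
  card : 7 ≤ p.I.card
  hr : 1 ≤ rs ∧ rs ≤ p.r0 ∧ p.r0 ≤ p.R ∧ D.f0 ≤ p.R
  hW : D.W = H.WW (11 / 10) p.I p.x0 p.r0 p.R
  hl : D.lw = fun x => (rh p.I p.x0 p.r0 x)⁻¹

/-! ### pointwise quantities -/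

namespace Dat

variable (D : Dat n) (μ : Mu)

def XX (x : EE n) : EE n := ∇ (W.uD D) x
def VV (x : EE n) : EE n := (D.W x)⁻¹ • ∇ D.W x
def zz (x : EE n) : ℝ := D.Z x * D.W x
/-- the thick part of the potential -/
def tk (ηt : ℝ) (x : EE n) : ℝ :=
  if D.rp x * Bn D.v x ≤ ηt then 0 else (1 + ep) * hsq (dd D.v) x
/-- the coefficient fed to `Flux`, `Err`, `Kept` -/
def th (x : EE n) : ℝ := 5 / 6 * μ.b (D.U x) * W.thD D x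

/-- the integrand of the weak inequality -/
def h1 (ηt C : ℝ) : EE n → ℝ := D.Om.indicator fun x => D.dens x *
  (D.ch x ^ 2 * (μ.b (D.U x) * W.GD D μ.kap ep ηt C et x +
      (μ.bu (D.U x) + 2 * μ.s (D.U x) * μ.b (D.U x)) * ‖D.XX x‖ ^ 2 +
      2 * μ.b (D.U x) * ⟪D.XX x, D.VV x⟫) +
    2 * μ.b (D.U x) * D.ch x * D.chd x *
      (⟪D.XX x, ∇ D.Th x⟫ - SignType.sign (dd D.v x) * ⟪nn D.v x, D.XX x⟫))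

/-- the integrand of the Hardy identity -/
def h2 (p : Wp n) (Ce : ℝ) : EE n → ℝ := D.Om.indicator fun x => D.dens x *
  (D.ch x ^ 2 * (H.tf D.v x ((μ.cu (D.U x) + 2 * μ.s (D.U x) * μ.c (D.U x)) • D.XX x +
        (2 * μ.c (D.U x)) • D.VV x) (∇ (H.lr p.I p.x0 p.r0) x) +
      μ.c (D.U x) * (H.trT D.v p.I x / rh p.I p.x0 p.r0 x ^ 2 -
        2 * H.tf D.v x (∇ (H.lr p.I p.x0 p.r0) x) (∇ (H.lr p.I p.x0 p.r0) x) -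
        Ce * tt D.v x / rh p.I p.x0 p.r0 x)) +
    2 * μ.c (D.U x) * D.ch x * D.chd x * H.tf D.v x (∇ D.Th x) (∇ (H.lr p.I p.x0 p.r0) x))

open Classical in
/-- `G = gg ψ² / Z0²` -/
def gg (x : EE n) : ℝ :=
  if x ∈ D.Om then D.ch x ^ 2 * D.Z x ^ 2 else if |dd D.v x| ≤ 1 then 1 else 0

/-! ### integral quantities -/

def COST (T2 : ℝ) : ℝ≥0∞ :=
  ∫⁻ x in {x | |dd D.v x| < T2}, ENNReal.ofReal (psi D.v x ^ 2 * gsq D.zz x)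
def GB : ℝ≥0∞ :=
  ∫⁻ x in D.In, ENNReal.ofReal (D.ch x ^ 2 * D.dens x * (μ.b (D.U x) * ‖D.XX x‖ ^ 2))
def GH : ℝ≥0∞ :=
  ∫⁻ x in {x | x ∈ D.In ∧ D.U x ≤ μ.U3}, ENNReal.ofReal (D.ch x ^ 2 * D.dens x * D.lw x ^ 2)
def POT (ηt : ℝ) : ℝ≥0∞ := ∫⁻ x in D.In, ENNReal.ofReal (D.ch x ^ 2 * D.dens x *
  (μ.b (D.U x) * (W.thD D x * D.rp x * D.tk ηt x + W.thD D.flip x * D.rm x * D.flip.tk ηt x)))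
def ERR (th : EE n → ℝ) : ℝ≥0∞ :=
  ∫⁻ x in D.In, ENNReal.ofReal (D.ch x ^ 2 * D.dens x * (th x * D.rp x * tt D.v x ^ 2))
def FLX (th : EE n → ℝ) : ℝ≥0∞ :=
  ∫⁻ x in D.Cut, ENNReal.ofReal (D.dens x * (2 * D.ch x * D.chd x * th x *
    (-(SignType.sign (dd D.v x) * ⟪nn D.v x, ∇ D.rp x⟫))))
def GT : ℝ≥0∞ := ∫⁻ x in D.Cut, ENNReal.ofReal (D.dens x * (μ.b (D.U x) * ‖∇ D.Th x‖ ^ 2))
def TOP (U1 T2 : ℝ) : ℝ≥0∞ :=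
  ∫⁻ x in {x | (x ∈ D.In ∧ U1 ≤ D.U x) ∨ (x ∉ D.Om ∧ |dd D.v x| < T2)}, ENNReal.ofReal (D.W x ^ 2)
def RR : ℝ≥0∞ := ∫⁻ x, ENNReal.ofReal (D.gg x * psi D.v x ^ 2 * D.W x ^ 2)
def G1 : ℝ≥0∞ :=
  ∫⁻ x in {x | |dd D.v x| ≤ 1}, ENNReal.ofReal (tt D.v x * D.Z x ^ 2 * D.W x ^ 2)
def G2 : ℝ≥0∞ := ENNReal.ofReal (D.Z0 ^ 2 * D.f0 ^ 3) *
  ∫⁻ x in {x | |dd D.v x| ≤ 1}, ENNReal.ofReal (D.F (tt D.v x) * D.W x ^ 2)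

end Dat

/-- the source of `MIData.mi` -/
def SRC (v : EE n → ℝ) (f0 : ℝ) (p : Wp n) : ℝ≥0∞ :=
  ∫⁻ x, ENNReal.ofReal (min (f0 ^ (-2 : ℝ)) (f0 ^ (3 : ℝ) * rh p.I p.x0 p.r0 x ^ (-(3 : ℝ) - 2)) *
    (psi v x ^ (2 : ℝ) * rh p.I p.x0 p.r0 x ^ (-(2 * (11 / 10 : ℝ))) * Om p.x0 p.R x))

/-! ### leaves on one set of data -/

/-- **I1** (helper47): the weak inequality -/
def I1Stmt (n : ℕ) : Prop := ∀ (D : Dat n) (μ : Mu) (p : Wp n) (K C1 rs ηt C T2 τ : ℝ),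
  Ex D μ p K C1 rs ηt C T2 τ → Integrable (D.h1 μ ηt C) ∧ ∫ x, D.h1 μ ηt C x ≤ 0

/-- **I2** (helper47): the Hardy identity (`H.hardyT`) -/
def I2Stmt (n : ℕ) : Prop := ∃ Ce : ℝ, 0 ≤ Ce ∧
  ∀ (D : Dat n) (μ : Mu) (p : Wp n) (K C1 rs ηt C T2 τ : ℝ),
    Ex D μ p K C1 rs ηt C T2 τ → Integrable (D.h2 μ p Ce) ∧ ∫ x, D.h2 μ p Ce x ≤ 0

/-- **ZG**: the gradient of the test function -/
def ZGStmt (n : ℕ) : Prop := ∀ (D : Dat n) (μ : Mu) (p : Wp n) (K C1 rs ηt C T2 τ : ℝ),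
  Ex D μ p K C1 rs ηt C T2 τ → ∀ᵐ x, |dd D.v x| < T2 →
    (x ∈ D.Om → ∇ D.zz x = D.zz x • (μ.s (D.U x) • D.XX x + D.VV x)) ∧
    (x ∉ D.Om → ∇ D.zz x = ∇ D.W x)

/-- **TEST** (helper39) -/
def TestStmt (n : ℕ) : Prop := ∀ K : ℝ, ∃ K' : ℝ, 1 ≤ K' ∧
  ∀ (D : Dat n) (μ : Mu) (p : Wp n) (C1 rs ηt C T2 τ : ℝ),
    Ex D μ p K C1 rs ηt C T2 τ → Test D.v T2 K' D.zz

/-- **MAIN** (helper90): the pointwise inequality, integrated -/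
def MainStmt (n : ℕ) : Prop := ∀ K : ℝ, ∃ Cm : ℝ, 1 ≤ Cm ∧
  ∀ (D : Dat n) (μ : Mu) (p : Wp n) (C1 rs ηt C T2 τ : ℝ), Ex D μ p K C1 rs ηt C T2 τ →
    ENNReal.ofReal (1 + ep) * D.COST T2 + ENNReal.ofReal (1 / 40000) * D.GB μ +
      ENNReal.ofReal (1 / 200) * D.GH μ +
      ENNReal.ofReal (6 / 5 * (et * k0 / 4)) * (D.Kept (D.th μ) + D.flip.Kept (D.flip.th μ)) ≤
    D.POT μ ηt + ENNReal.ofReal (Cm + 2 * C) * (D.ERR (D.th μ) + D.flip.ERR (D.flip.th μ)) +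
      ENNReal.ofReal (6 / 5) * (D.FLX (D.th μ) + D.flip.FLX (D.flip.th μ)) +
      ENNReal.ofReal Cm * D.GT μ + ENNReal.ofReal (Cm / rs ^ 2) * D.TOP μ.U3 T2 +
      ENNReal.ofReal (μ.be * (Cm * D.M ^ 6)) * D.TOP (1 / D.M ^ 2) T2 +
      ENNReal.ofReal (Cm / p.R ^ 2) * D.RR

/-- **FINITE**: everything that is cancelled is finite -/
def FinStmt (n : ℕ) : Prop := ∀ (D : Dat n) (μ : Mu) (p : Wp n) (K C1 rs ηt C T2 τ : ℝ),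
  Ex D μ p K C1 rs ηt C T2 τ → D.COST T2 ≠ ⊤ ∧ D.GB μ ≠ ⊤ ∧ D.GH μ ≠ ⊤ ∧ D.GG ≠ ⊤ ∧
    D.Kept (D.th μ) ≠ ⊤ ∧ D.flip.Kept (D.flip.th μ) ≠ ⊤ ∧ D.RR ≠ ⊤

/-- **PS**: the splitting of the potential -/
def PSplitStmt (n : ℕ) : Prop := ∀ K ηt : ℝ, 0 < ηt → ∃ η' Cp : ℝ, 0 < η' ∧ 0 ≤ Cp ∧
  ∀ (D : Dat n) (μ : Mu) (p : Wp n) (C1 rs C T2 τ T0 T1 : ℝ), Ex D μ p K C1 rs ηt C T2 τ →
    T1 ≤ T0 → D.POT μ ηt ≤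
      ENNReal.ofReal (1 - ep) * (∫⁻ x in {x | |dd D.v x| ≤ T0 ∧ tt D.v x ≤ τ}, ENNReal.ofReal
        (psi D.v x ^ 2 * hsq (dd D.v) x * D.zz x ^ 2)) +
      (∫⁻ x in {x | x ∈ D.In ∧ T1 ≤ |dd D.v x| ∧ 80 / D.f0 ≤ D.U x ∧ η' * ph0 D.v x ≤ Bn D.v x},
        ENNReal.ofReal (D.dens x * hsq (dd D.v) x)) +
      ENNReal.ofReal Cp * (ENNReal.ofReal (D.Z0 ^ 2 * D.f0 ^ 3) *
        ∫⁻ x in {x | x ∈ D.In ∧ η' * ph0 D.v x ≤ Bn D.v x},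
          ENNReal.ofReal (psi D.v x ^ 2 * D.F (hsq (dd D.v) x) * D.W x ^ 2))

/-- **LOW** (helper39): `gg` sees the shallow points that are not flat -/
def LowGStmt (n : ℕ) : Prop := ∀ (D : Dat n) (μ : Mu) (p : Wp n) (K C1 rs ηt C T2 τ : ℝ),
  Ex D μ p K C1 rs ηt C T2 τ → ∀ κ, 300 / D.f0 ≤ κ → κ ≤ μ.U3 → ∀ x ∈ Sh D.v, ¬ Flat D.v κ x →
    1 / 10 ^ 7 * (D.f0 * κ) ^ (2 * (51 / 50 : ℝ)) ≤ D.gg x * psi D.v x ^ 2 / D.Z0 ^ 2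

/-! ### leaves with large parameters -/

/-- **GT** (helper69): the gradient of the depth of the cut -/
def GTStmt (n : ℕ) : Prop := ∀ K e : ℝ, 0 < e → ∃ Cs : ℝ, ∀ C1, Cs ≤ C1 → ∀ C2, 3 * C1 ≤ C2 →
  ∃ Ms : ℝ, ∀ M, Ms ≤ M → ∃ fs : ℝ, ∀ (D : Dat n) (μ : Mu) (p : Wp n) (rs ηt C T2 τ : ℝ), D.C2 = C2 →
    D.M = M → fs ≤ D.f0 → Ex D μ p K C1 rs ηt C T2 τ → D.Th = That (φ0 n) D.v (D.wf C1) →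
    D.GT μ ≤ ENNReal.ofReal e * D.GB μ

/-- **CORE** (helper69) -/
def CoreStmt (n : ℕ) : Prop := ∀ K C2 M U1 T2 : ℝ, 0 < U1 → ∃ A fs : ℝ, 0 ≤ A ∧
  ∀ (D : Dat n) (μ : Mu) (p : Wp n) (C1 rs ηt C τ : ℝ), D.C2 = C2 → D.M = M → fs ≤ D.f0 →
    Ex D μ p K C1 rs ηt C T2 τ → D.TOP U1 T2 ≤ ENNReal.ofReal A * D.G1

/-- **MID** (helper69): SSY -/
def MidStmt (n : ℕ) : Prop := ∀ K : ℝ, ∃ e1 : ℝ, 0 < e1 ∧ ∀ β : Bo, β.η ≤ e1 → ∀ e : ℝ, 0 < e →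
  ∃ A : ℝ, 0 ≤ A ∧ Big n K la k0 β fun D => ∀ (μ : Mu) (p : Wp n) (C1 rs ηt C T2 τ : ℝ),
    Ex D μ p K C1 rs ηt C T2 τ →
      D.G2 ≤ ENNReal.ofReal e * D.G1 + ENNReal.ofReal (A * D.Z0 ^ 2) * SRC D.v D.f0 p

/-- **J** (helper39 / 1): the power `1 / θ` of `gg` is paid by the gains, with a constant that
depends on `f0` but neither on the cap nor on the weight -/
def JStmt (n : ℕ) : Prop := ∀ (K T2 : ℝ) (β : Bo) (C1 C2 : ℝ), 1 ≤ C1 → 3 * C1 ≤ C2 → ∃ Ms : ℝ,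
  ∀ M, Ms ≤ M → ∃ fs : ℝ, ∀ f0, fs ≤ f0 → ∀ h ζ : ℝ → ℝ, ∃ Φ : ℝ, 0 < Φ ∧
    ∀ (D : Dat n) (μ : Mu) (p : Wp n) (rs ηt C τ : ℝ), D.β = β → D.C2 = C2 → D.M = M →
      D.f0 = f0 → D.h = h → D.ζ = ζ → Ex D μ p K C1 rs ηt C T2 τ →
      ∫⁻ x in {x | x ∈ D.Om → 2 * min (D.rp x) (D.rm x) < D.ρm}, ENNReal.ofReal
        (D.gg x ^ (1 / θ0) * psi D.v x ^ 2 * D.W x ^ 2) ≤ ENNReal.ofReal Φ * D.GG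

/-! ### the limit `ρm → ∞` -/

/-- **CONV** -/
def ConvStmt (n : ℕ) : Prop := ∀ (D : Dat n) (K C1 rs ρ0 : ℝ), 0 ≤ C1 →
  (∀ m : ℕ, (D.cap C1 (ρ0 + m)).Ok K la C1 rs ∧ (D.cap C1 (ρ0 + m)).Bas) → ∀ x, ∃ g : ℝ,
    Tendsto (fun m : ℕ => (D.cap C1 (ρ0 + m)).gg x) atTop (𝓝 g) ∧
    (0 < g → ∀ᶠ m : ℕ in atTop, x ∈ (D.cap C1 (ρ0 + m)).Om →
      2 * min ((D.cap C1 (ρ0 + m)).rp x) ((D.cap C1 (ρ0 + m)).rm x) < ρ0 + m)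

/-- **LIM**: abstract passage to the limit -/
def LimGStmt (n : ℕ) : Prop := n ≤ 9 → ∀ (v : EE n → ℝ) (C0 κ1 c Co rs f0 Z0 Φ : ℝ)
  (g : ℕ → EE n → ℝ) (A : ℕ → Set (EE n)), Sol v → 0 ≤ Co → 1 ≤ rs → 1 ≤ f0 → 0 < Z0 → 0 < Φ →
    (∀ m, Measurable (g m)) → (∀ m, MeasurableSet (A m)) → (∀ m x, 0 ≤ g m x ∧ g m x ≤ 1) →
    (∀ x, ∃ l, Tendsto (fun m => g m x) atTop (𝓝 l) ∧ (0 < l → ∀ᶠ m in atTop, x ∈ A m)) →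
    (∀ m κ, C0 / f0 ≤ κ → κ ≤ κ1 → ∀ x ∈ Sh v, ¬ Flat v κ x →
      c * (f0 * κ) ^ (2 * (51 / 50 : ℝ)) ≤ g m x * psi v x ^ 2 / Z0 ^ 2) →
    (∀ (p : Wp n) (m : ℕ), 7 ≤ p.I.card → rs ≤ p.r0 → p.r0 ≤ p.R → f0 ≤ p.R →
      (∫⁻ x, ENNReal.ofReal (g m x * psi v x ^ 2 * H.WW (11 / 10) p.I p.x0 p.r0 p.R x ^ 2 *
          (rh p.I p.x0 p.r0 x)⁻¹ ^ 2)) +
        ENNReal.ofReal Φ⁻¹ * (∫⁻ x in A m, ENNReal.ofReal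
          (g m x ^ (1 / θ0) * psi v x ^ 2 * H.WW (11 / 10) p.I p.x0 p.r0 p.R x ^ 2)) ≤
      ENNReal.ofReal Co * (ENNReal.ofReal (1 / p.R ^ 2) * (∫⁻ x, ENNReal.ofReal
          (g m x * psi v x ^ 2 * H.WW (11 / 10) p.I p.x0 p.r0 p.R x ^ 2)) +
        ENNReal.ofReal (Z0 ^ 2) * SRC v f0 p)) →
    ∃ G J : EE n → ℝ, MIData v (11 / 10) (51 / 50) 3 θ0 2 C0 κ1 c (2 ^ 20 * Co + 1) rs f0 G J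

end

end Crest.Agent.N067.M
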